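import Mathlib

namespace Vale.Agent.P312

/-- Head moves. -/
inductive Move
  | left
  | stay
  | right

/-- The displacement of a head on a two-way infinite tape. -/
def Move.int : Move → ℤ
  | .left => -1
  | .stay => 0
  | .right => 1

/-- The new head position on a one-way infinite tape (a left move at cell `0` stays there). -/
def Move.nat : Move → ℕ → ℕ
  | .left, p => p - 1
  | .stay, p => p
  | .right, p => p + 1

/-- A deterministic one-tape Turing machine over the input alphabet `A`, with finite state set
`Q` and finite tape alphabet `Γ`.  A state with `out = some b` is halting, with answer `b`. -/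
structure OneTape (A : Type) where
  Q : Type
  Γ : Type
  finQ : Finite Q
  finΓ : Finite Γ
  start : Q
  blank : Γ
  sym : A → Γ
  out : Q → Option Bool
  trans : Q → Γ → Q × Γ × Move

/-- A configuration of a one-tape machine: state, two-way infinite tape, head position. -/
structure OneTape.Cfg {A : Type} (M : OneTape A) where
  state : M.Q
  tape : ℤ → M.Γ
  head : ℤ

/-- One step of a one-tape machine; halting configurations do not change. -/
def OneTape.step {A : Type} (M : OneTape A) (c : M.Cfg) : M.Cfg :=
  if (M.out c.state).isSome then c else
    let d := M.trans c.state (c.tape c.head)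
    ⟨d.1, Function.update c.tape c.head d.2.1, c.head + d.2.2.int⟩

/-- The configuration after `t` steps on input `w`; initially `w` is written in the cells
`0, …, |w| - 1`, all other cells are blank and the head is on cell `0`. -/
def OneTape.run {A : Type} (M : OneTape A) (w : List A) (t : ℕ) : M.Cfg :=
  M.step^[t] ⟨M.start, fun p => if 0 ≤ p then (w[p.toNat]?.map M.sym).getD M.blank else M.blank, 0⟩

/-- Languages decided by a one-tape machine that halts within `t n` steps on inputs of length `n`. -/
def TIME1 (A : Type) (t : ℕ → ℕ) : Set (Set (List A)) :=
  {L | ∃ M : OneTape A, ∀ w : List A, ∃ b : Bool,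
    M.out (M.run w (t w.length)).state = some b ∧ (b = true ↔ w ∈ L)}

/-- A deterministic multitape Turing machine with a read-only input tape and `k` work tapes.
The input head sees `none` on the two end cells and `some a` on a letter `a`. -/
structure SpaceTM (A : Type) where
  Q : Type
  Γ : Type
  finQ : Finite Q
  finΓ : Finite Γ
  k : ℕ
  start : Q
  blank : Γ
  out : Q → Option Bool
  trans : Q → Option A → (Fin k → Γ) → Q × Move × (Fin k → Γ × Move)

/-- A configuration: state, input head position, work tapes and their head positions. -/
structure SpaceTM.Cfg {A : Type} (M : SpaceTM A) where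
  state : M.Q
  inHead : ℕ
  tape : Fin M.k → ℕ → M.Γ
  head : Fin M.k → ℕ

/-- The content of cell `p` of the input tape: the word occupies the cells `1, …, |w|`. -/
def readIn {A : Type} (w : List A) (p : ℕ) : Option A := if p = 0 then none else w[p - 1]?

/-- One step on input `w`; the input head stays in the cells `0, …, |w| + 1`, and halting
configurations do not change. -/
def SpaceTM.step {A : Type} (M : SpaceTM A) (w : List A) (c : M.Cfg) : M.Cfg :=
  if (M.out c.state).isSome then c else
    let d := M.trans c.state (readIn w c.inHead) fun j => c.tape j (c.head j)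
    ⟨d.1, min (d.2.1.nat c.inHead) (w.length + 1),
      fun j => Function.update (c.tape j) (c.head j) (d.2.2 j).1, fun j => (d.2.2 j).2.nat (c.head j)⟩

/-- The configuration after `t` steps; initially the work tapes are blank, all heads on cell `0`. -/
def SpaceTM.run {A : Type} (M : SpaceTM A) (w : List A) (t : ℕ) : M.Cfg :=
  (M.step w)^[t] ⟨M.start, 0, fun _ _ => M.blank, fun _ => 0⟩

/-- Languages decided by a multitape machine using `O(s n)` work-tape cells on inputs of length
`n`: on each work tape only the cells `0, …, m - 1` are ever scanned, with `m ≤ c * s n + c`. -/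
def SPACE (A : Type) (s : ℕ → ℝ) : Set (Set (List A)) :=
  {L | ∃ (M : SpaceTM A) (c : ℝ), ∀ w : List A,
    (∃ (t : ℕ) (b : Bool), M.out (M.run w t).state = some b ∧ (b = true ↔ w ∈ L)) ∧
    ∀ (t : ℕ) (j : Fin M.k), (((M.run w t).head j + 1 : ℕ) : ℝ) ≤ c * s w.length + c}

end Vale.Agent.P312
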