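import Vale.Agent.P312.RF

namespace Vale.Agent.P312
open Function Finset

theorem RF.sub {ι : Type} {F G : (ι → ℕ) → ℕ} (hF : RF F) (hG : RF G) : RF fun v => F v - G v := by
  obtain ⟨b, hb, h⟩ := hF.1
  exact RF.prec hG hF (RF.proj none).pred (fun v i => F v - i) (fun _ => rfl) (fun _ _ => rfl)
    ⟨b, hb, fun v N hv i _ => (Nat.sub_le _ _).trans (h v N hv)⟩

class Cd (X : Type) where
  ι : Type
  fin : Finite ι
  enc : X → ι → ℕ

attribute [instance] Cd.fin
open Cd

instance : Cd ℕ := ⟨Unit, inferInstance, fun n _ => n⟩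
instance {X Y : Type} [Cd X] [Cd Y] : Cd (X × Y) :=
  ⟨ι X ⊕ ι Y, inferInstance, fun p => Sum.elim (enc p.1) (enc p.2)⟩

/-- self-delimiting pairing -/
def cns (a n : ℕ) : ℕ := 2 ^ a.size * (2 * (a + 2 ^ a.size * n) + 1)

def encL : List ℕ → ℕ
  | [] => 0
  | a :: l => cns a (encL l)

instance : Cd (List ℕ) := ⟨Unit, inferInstance, fun l _ => encL l⟩

/-- linear-space computable functions -/
@[fun_prop] def LS {X Y : Type} [Cd X] [Cd Y] (f : X → Y) : Prop :=
  ∀ j, ∃ F, RF F ∧ ∀ x, F (enc x) = enc (f x) j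

open Classical in
/-- linear-space decidable predicates -/
@[fun_prop] def LP {X : Type} [Cd X] (R : X → Prop) : Prop := LS fun x => if R x then 1 else 0

section
variable {X Y Z : Type} [Cd X] [Cd Y] [Cd Z]

theorem LS.congr {f g : X → Y} (hf : LS f) (h : ∀ x, f x = g x) : LS g := by
  rwa [show g = f from funext fun x => (h x).symm]

theorem LS.of_enc {f : X → Y} {g : X → Z} (hf : LS f) (e : ι Z → ι Y)
    (h : ∀ x j, enc (f x) (e j) = enc (g x) j) : LS g := fun j =>
  (hf (e j)).imp fun _ H => ⟨H.1, fun x => (H.2 x).trans (h x j)⟩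

@[fun_prop] theorem LS.id' : LS fun x : X => x := fun j => ⟨_, RF.proj j, fun _ => rfl⟩
@[fun_prop] theorem LS.const (c : Y) : LS fun _ : X => c := fun j => ⟨_, RF.const (enc c j), fun _ => rfl⟩

@[fun_prop] theorem LS.comp {f : Y → Z} {g : X → Y} (hf : LS f) (hg : LS g) : LS fun x => f (g x) := by
  intro j
  obtain ⟨F, h1, h2⟩ := hf j
  choose G h3 h4 using hg
  refine ⟨_, RF.comp (h1.comap (Sum.inr : ι Y → ι X ⊕ ι Y)) h3, fun x => ?_⟩
  rw [← h2]; congr 1; funext i; exact h4 i x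

@[fun_prop] theorem LS.prodMk {f : X → Y} {g : X → Z} (hf : LS f) (hg : LS g) : LS fun x => (f x, g x) :=
  fun j => by cases j with
    | inl j => exact hf j
    | inr j => exact hg j

@[fun_prop] theorem LS.fst {f : X → Y × Z} (hf : LS f) : LS fun x => (f x).1 := fun j => hf (.inl j)
@[fun_prop] theorem LS.snd {f : X → Y × Z} (hf : LS f) : LS fun x => (f x).2 := fun j => hf (.inr j)

@[fun_prop] theorem LP.comp {R : Y → Prop} {g : X → Y} (hR : LP R) (hg : LS g) : LP fun x => R (g x) :=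
  LS.comp hR hg

theorem LP.congr {R S : X → Prop} (h : LP R) (e : ∀ v, R v ↔ S v) : LP S := by
  rwa [show S = R from funext fun v => propext (e v).symm]

@[fun_prop] theorem LS.add {f g : X → ℕ} (hf : LS f) (hg : LS g) : LS fun x => f x + g x := fun j => by
  obtain ⟨F, h1, h2⟩ := hf j; obtain ⟨G, h3, h4⟩ := hg j
  exact ⟨_, h1.add h3, fun x => by rw [h2, h4]; rfl⟩

@[fun_prop] theorem LS.sub {f g : X → ℕ} (hf : LS f) (hg : LS g) : LS fun x => f x - g x := fun j => by
  obtain ⟨F, h1, h2⟩ := hf j; obtain ⟨G, h3, h4⟩ := hg j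
  exact ⟨_, h1.sub h3, fun x => by rw [h2, h4]; rfl⟩

theorem LS.prec {n f b : X → ℕ} {g : (X × ℕ) × ℕ → ℕ} (hn : LS n) (hf : LS f) (hg : LS g) (hb : LS b)
    (R : X → ℕ → ℕ) (h0 : ∀ x, R x 0 = f x) (hs : ∀ x i, R x (i + 1) = g ((x, i), R x i))
    (h : ∀ x, ∀ i ≤ n x, R x i ≤ b x) : LS fun x => R x (n x) := by
  intro _
  obtain ⟨n', n1, n2⟩ := hn (); obtain ⟨F, f1, f2⟩ := hf (); obtain ⟨G, g1, g2⟩ := hg ()
  obtain ⟨B, b1, b2⟩ := hb ()
  let e : (ι X ⊕ Unit) ⊕ Unit → Option (Option (ι X)) :=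
    Sum.elim (Sum.elim (fun i => some (some i)) fun _ => some none) fun _ => none
  have g3 := g1.comap e
  have b3 := b1.comap fun i => some (some i)
  let R' : (ι X → ℕ) → ℕ → ℕ := fun v i => Nat.rec (F v) (fun i y =>
    G (fun j => (e j).elim y fun o => o.elim i v) - (G (fun j => (e j).elim y fun o => o.elim i v) - B v)) i
  obtain ⟨c1, c2, c3⟩ := f1.1; obtain ⟨d1, d2, d3⟩ := b1.1
  refine ⟨_, RF.prec n1 f1 (g3.sub (g3.sub b3)) R' (fun _ => rfl) (fun _ _ => rfl)
    ⟨fun N => c1 N + d1 N, by fun_prop, fun v N hv i _ => ?_⟩, fun x => ?_⟩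
  · have := c3 v N hv; have := d3 v N hv
    rcases i with _ | i
    · simp only [R', Nat.rec_zero]; omega
    · simp only [R']; omega
  · rw [n2]
    suffices H : ∀ i ≤ n x, R' (enc x) i = R x i from H _ le_rfl
    intro i
    induction i with
    | zero => intro _; rw [h0]; exact f2 x
    | succ i ih =>
      intro hi
      have e1 : G (fun j => (e j).elim (R x i) fun o => o.elim i (enc x)) = R x (i + 1) := by
        rw [hs]; refine Eq.trans ?_ (g2 _); congr 1; funext j; rcases j with (j | j) | j <;> rfl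
      have e2 : B (enc x) = b x := b2 x
      have := h x _ hi
      show G (fun j => (e j).elim (R' (enc x) i) _) - (G (fun j => (e j).elim (R' (enc x) i) _) - _) = _
      rw [ih (by omega), e1, e2]; omega

theorem LS.bnd {n : X → ℕ} {g : X × ℕ → ℕ} (hg : LS g) (hn : LS n) :
    ∃ b : X → ℕ, LS b ∧ ∀ x, ∀ i ≤ n x, g (x, i) ≤ b x := by
  refine ⟨fun x => (range (n x + 1)).sup fun i => g (x, i), ?_, fun x i hi =>
    le_sup (f := fun i => g (x, i)) (mem_range.2 (by omega))⟩
  intro _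
  obtain ⟨n', n1, n2⟩ := hn (); obtain ⟨G, g1, g2⟩ := hg ()
  let e : ι X ⊕ Unit → Option (Option (ι X)) := Sum.elim (fun i => some (some i)) fun _ => some none
  have g3 := g1.comap e
  obtain ⟨c1, c2, c3⟩ := g1.1; obtain ⟨d1, d2, d3⟩ := n1.1
  refine ⟨_, RF.prec (n1.add RF.one) RF.zero ((RF.proj none).add (g3.sub (RF.proj none)))
    (fun v i => (range i).sup fun i => G (Sum.elim v fun _ => i)) (fun _ => rfl) (fun v i => ?_)
    ⟨fun N => c1 (N + d1 N), by fun_prop, fun v N hv i hi => Finset.sup_le fun k hk => c3 _ _ fun j => ?_⟩,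
    fun x => ?_⟩
  · rw [range_add_one, sup_insert]
    have : (fun j => (e j).elim ((range i).sup fun i => G (Sum.elim v fun _ => i)) fun o => o.elim i v) =
        Sum.elim v fun _ => i := by funext j; rcases j with j | j <;> rfl
    have h5 := congrArg G this
    generalize (range i).sup (fun i => G (Sum.elim v fun _ => i)) = m at h5 ⊢
    show _ = m + (G (fun j => (e j).elim m fun o => o.elim i v) - m)
    erw [h5]; generalize G (Sum.elim v fun _ => i) = u; omega
  · have := d3 v N hv; have := mem_range.1 hk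
    rcases j with j | j
    · have := hv j; simp; omega
    · simp; omega
  · rw [n2]; exact congrArg _ (funext fun i => g2 (x, i))

@[fun_prop] theorem LS.mul {f g : X → ℕ} (hf : LS f) (hg : LS g) : LS fun x => f x * g x := fun j => by
  obtain ⟨F, h1, h2⟩ := hf j; obtain ⟨G, h3, h4⟩ := hg j
  obtain ⟨c1, c2, c3⟩ := h1.1; obtain ⟨d1, d2, d3⟩ := h3.1
  exact ⟨_, RF.prec h3 RF.zero ((RF.proj none).add (h1.comap fun i => some (some i)))
    (fun v i => F v * i) (fun _ => rfl) (fun _ _ => rfl) ⟨fun N => c1 N * d1 N, by fun_prop,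
      fun v N hv i hi => Nat.mul_le_mul (c3 v N hv) (hi.trans (d3 v N hv))⟩, fun x => by
      beta_reduce; rw [h2, h4]; rfl⟩

@[fun_prop] theorem LS.powc {f : X → ℕ} (hf : LS f) (k : ℕ) : LS fun x => f x ^ k := by
  induction k with
  | zero => simpa using LS.const 1
  | succ k ih => simpa [pow_succ] using ih.mul hf

@[fun_prop] theorem LS.ite {c : X → Prop} [DecidablePred c] {f g : X → Y} (hc : LP c) (hf : LS f)
    (hg : LS g) : LS fun x => if c x then f x else g x := by
  intro j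
  have h1 : LS fun x => enc (f x) j := fun _ => hf j
  have h2 : LS fun x => enc (g x) j := fun _ => hg j
  refine ((hc.mul h1).add (((LS.const 1).sub hc).mul h2) ()).imp fun F H => ⟨H.1, fun x => ?_⟩
  rw [H.2]; by_cases h : c x <;> simp [h, enc]

@[fun_prop] theorem LP.le {f g : X → ℕ} (hf : LS f) (hg : LS g) : LP fun x => f x ≤ g x :=
  ((LS.const 1).sub (hf.sub hg)).congr fun x => by split_ifs <;> omega
@[fun_prop] theorem LP.not {R : X → Prop} (h : LP R) : LP fun x => ¬ R x :=
  ((LS.const 1).sub h).congr fun x => by by_cases h : R x <;> simp [h]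
@[fun_prop] theorem LP.and {R S : X → Prop} (h : LP R) (h' : LP S) : LP fun x => R x ∧ S x :=
  (LS.mul h h').congr fun x => by by_cases h : R x <;> by_cases h' : S x <;> simp [h, h']
@[fun_prop] theorem LP.or {R S : X → Prop} (h : LP R) (h' : LP S) : LP fun x => R x ∨ S x :=
  (h.not.and h'.not).not.congr fun x => by tauto
@[fun_prop] theorem LP.lt {f g : X → ℕ} (hf : LS f) (hg : LS g) : LP fun x => f x < g x :=
  (LP.le hg hf).not.congr fun _ => not_le
@[fun_prop] theorem LP.eq {f g : X → ℕ} (hf : LS f) (hg : LS g) : LP fun x => f x = g x :=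
  ((LP.le hf hg).and (LP.le hg hf)).congr fun _ => le_antisymm_iff.symm
@[fun_prop] theorem LP.ne {f g : X → ℕ} (hf : LS f) (hg : LS g) : LP fun x => f x ≠ g x := (LP.eq hf hg).not

theorem LS.sum {n : X → ℕ} {g : X → ℕ → ℕ} (hn : LS n) (hg : LS fun p : X × ℕ => g p.1 p.2) :
    LS fun x => ∑ i ∈ range (n x), g x i := by
  obtain ⟨b, hb, h⟩ := hg.bnd hn
  refine LS.prec (g := fun p => p.2 + g p.1.1 p.1.2) hn (LS.const 0) ((LS.id'.snd).add (hg.comp LS.id'.fst))
    (hn.mul hb) (fun x i => ∑ i ∈ range i, g x i) (fun _ => rfl) (fun x i => sum_range_succ _ _)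
    fun x i hi => ?_
  refine (sum_le_card_nsmul _ _ (b x) fun k hk => h x k ?_).trans ?_
  · have := mem_range.1 hk; omega
  · simpa using Nat.mul_le_mul_right _ hi

theorem LS.findGreatest {n : X → ℕ} {R : X → ℕ → Prop} [∀ x, DecidablePred (R x)] (hn : LS n)
    (hR : LP fun p : X × ℕ => R p.1 p.2) : LS fun x => Nat.findGreatest (R x) (n x) :=
  LS.prec (g := fun p => if R p.1.1 (p.1.2 + 1) then p.1.2 + 1 else p.2) hn (LS.const 0)
    (LS.ite (hR.comp (g := fun p : (X × ℕ) × ℕ => (p.1.1, p.1.2 + 1)) (by fun_prop)) (by fun_prop)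
      (by fun_prop)) hn (fun x i => Nat.findGreatest (R x) i) (fun _ => rfl) (fun _ _ => rfl)
    fun _ i hi => (Nat.findGreatest_le i).trans hi

@[fun_prop] theorem LS.div {f g : X → ℕ} (hf : LS f) (hg : LS g) : LS fun x => f x / g x :=
  (LS.findGreatest (R := fun x k => 0 < g x ∧ k * g x ≤ f x) hf (by fun_prop)).congr fun x => by
    rw [Nat.findGreatest_eq_iff]
    refine ⟨Nat.div_le_self _ _, fun h => ⟨Nat.pos_of_ne_zero fun e => h (by simp [e]),
      Nat.div_mul_le_self _ _⟩, fun k hk _ h => ?_⟩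
    exact absurd ((Nat.le_div_iff_mul_le h.1).2 h.2) (by omega)

@[fun_prop] theorem LS.mod {f g : X → ℕ} (hf : LS f) (hg : LS g) : LS fun x => f x % g x :=
  LS.congr (f := fun x => f x - g x * (f x / g x)) (by fun_prop) fun _ => (Nat.mod_def _ _).symm

@[fun_prop] theorem LP.dvd {f g : X → ℕ} (hf : LS f) (hg : LS g) : LP fun x => f x ∣ g x :=
  LP.congr (R := fun x => g x % f x = 0) (by fun_prop) fun _ => (Nat.dvd_iff_mod_eq_zero ..).symm

theorem LP.ball {n : X → ℕ} {R : X → ℕ → Prop} (hn : LS n) (hR : LP fun p : X × ℕ => R p.1 p.2) :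
    LP fun x => ∀ i < n x, R x i := by
  classical
  exact (LP.eq (LS.sum (g := fun x i => if ¬ R x i then 1 else 0) hn
    (LS.congr hR.not fun _ => by congr)) (LS.const 0)).congr fun x => by simp [sum_eq_zero_iff]

@[fun_prop] theorem LP.prime {f : X → ℕ} (hf : LS f) : LP fun x => (f x).Prime :=
  LP.congr (R := fun x => 2 ≤ f x ∧ ∀ m < f x, ¬ m ∣ f x ∨ m = 1)
    (LP.and (by fun_prop) (LP.ball hf (by fun_prop))) fun x => by
    simp only [Nat.prime_def_lt, imp_iff_not_or (b := _ = 1)]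

def shr (β a i : ℕ) : ℕ := a / β ^ i
def pw (a i m : ℕ) : ℕ := a ^ i % (m + 1)
def dg (β a i : ℕ) : ℕ := a / β ^ i % β

@[fun_prop] theorem LS.shr {β a i : X → ℕ} (h1 : LS β) (h2 : LS a) (h3 : LS i) :
    LS fun x => shr (β x) (a x) (i x) :=
  LS.prec (g := fun p => p.2 / β p.1.1) h3 h2 (by fun_prop) h2 (fun x i => a x / β x ^ i)
    (fun _ => by simp) (fun _ _ => by rw [pow_succ, Nat.div_div_eq_div_mul]) fun _ _ _ => Nat.div_le_self _ _

@[fun_prop] theorem LS.dg {β a i : X → ℕ} (h1 : LS β) (h2 : LS a) (h3 : LS i) :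
    LS fun x => dg (β x) (a x) (i x) := (LS.shr h1 h2 h3).mod h1

@[fun_prop] theorem LS.pw {a i m : X → ℕ} (h1 : LS a) (h2 : LS i) (h3 : LS m) :
    LS fun x => pw (a x) (i x) (m x) :=
  LS.prec (g := fun p => p.2 * a p.1.1 % (m p.1.1 + 1)) h2 (f := fun x => 1 % (m x + 1)) (by fun_prop)
    (by fun_prop) h3 (fun x i => a x ^ i % (m x + 1)) (fun _ => rfl)
    (fun _ _ => by rw [pow_succ, Nat.mod_mul_mod]) fun _ _ _ => Nat.lt_succ_iff.1 (Nat.mod_lt _ (by omega))

theorem pw_eq {a i m : ℕ} (h : a ^ i ≤ m) : pw a i m = a ^ i := Nat.mod_eq_of_lt (by omega)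

@[fun_prop] theorem LS.size {f : X → ℕ} (hf : LS f) : LS fun x => (f x).size :=
  (LS.findGreatest (R := fun x k => P312.shr 2 (f x) (k - 1) ≠ 0) hf (by fun_prop)).congr fun x => by
    simp only [Nat.findGreatest_eq_iff, P312.shr, ne_eq, Nat.div_eq_zero_iff, not_or, not_lt]
    refine ⟨Nat.size_le.2 Nat.lt_two_pow_self, fun h => ⟨by positivity, Nat.lt_size.1 (by omega)⟩,
      fun k hk _ h => ?_⟩
    have := Nat.lt_size.2 h.2; omega

theorem two_pow_size_le (a : ℕ) : 2 ^ a.size ≤ 2 * a + 1 := by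
  rcases e : a.size with _ | k
  · simp
  · have := Nat.lt_size.1 (show k < a.size by omega); rw [pow_succ]; omega

@[fun_prop] theorem LS.cons {f : X → ℕ} {g : X → List ℕ} (hf : LS f) (hg : LS g) :
    LS fun x => f x :: g x := by
  have h1 : LS fun x => encL (g x) := fun _ => hg ()
  exact LS.of_enc (f := fun x => P312.pw 2 (f x).size (2 * f x + 1) *
    (2 * (f x + P312.pw 2 (f x).size (2 * f x + 1) * encL (g x)) + 1)) (by fun_prop) id fun x _ => by
    rw [pw_eq (two_pow_size_le _)]; rfl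

def vv (n : ℕ) : ℕ := Nat.findGreatest (fun k => shr 2 n k * pw 2 k n = n) n

theorem vv_cns (a n : ℕ) : vv (cns a n) = a.size := by
  have h1 : 2 ^ a.size ≤ cns a n := Nat.le_mul_of_pos_right _ (by omega)
  rw [vv, Nat.findGreatest_eq_iff]
  refine ⟨Nat.lt_two_pow_self.le.trans h1, fun _ => ?_, fun k hk _ h => ?_⟩
  · rw [pw_eq h1, shr, Nat.div_mul_cancel (show 2 ^ a.size ∣ cns a n from ⟨_, rfl⟩)]
  · by_cases h2 : 2 ^ k ≤ cns a n
    · rw [pw_eq h2] at h
      have h3 : 2 ^ (a.size + 1) ∣ cns a n := (pow_dvd_pow 2 hk).trans ⟨_, by rw [mul_comm, h]⟩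
      rw [pow_succ, cns, Nat.mul_dvd_mul_iff_left (by positivity)] at h3
      omega
    · rw [shr, Nat.div_eq_of_lt (by omega)] at h
      have := Nat.one_le_two_pow (n := a.size); omega

theorem ls_vv {f : X → ℕ} (hf : LS f) : LS fun x => vv (f x) := LS.findGreatest hf (by fun_prop)

@[fun_prop] theorem LS.tail {g : X → List ℕ} (hg : LS g) : LS fun x => (g x).tail := by
  have h1 : LS fun x => encL (g x) := fun _ => hg ()
  have h2 := ls_vv h1
  refine LS.of_enc (f := fun x => P312.shr 2 (P312.shr 2 (encL (g x)) (vv (encL (g x))) / 2) (vv (encL (g x))))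
    (by fun_prop) id fun x _ => ?_
  rcases g x with _ | ⟨a, l⟩
  · simp [encL, P312.shr, enc]
  · simp only [encL, vv_cns, P312.shr, enc, List.tail_cons]
    rw [cns, Nat.mul_div_cancel_left _ (by positivity), show ∀ y, (2 * y + 1) / 2 = y by omega,
      Nat.add_mul_div_left _ _ (by positivity), Nat.div_eq_of_lt (Nat.lt_size_self a), zero_add]

theorem LS.headD {g : X → List ℕ} (hg : LS g) : LS fun x => (g x).headD 0 := by
  have h1 : LS fun x => encL (g x) := fun _ => hg ()
  have h2 := ls_vv h1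
  refine LS.congr (f := fun x => P312.shr 2 (encL (g x)) (vv (encL (g x))) / 2 %
    P312.pw 2 (vv (encL (g x))) (encL (g x))) (by fun_prop) fun x => ?_
  rcases g x with _ | ⟨a, l⟩
  · simp [encL, P312.shr]
  · simp only [encL, vv_cns, P312.shr, List.headD_cons]
    rw [pw_eq (show 2 ^ a.size ≤ cns a (encL l) from Nat.le_mul_of_pos_right _ (by omega)), cns, Nat.mul_div_cancel_left _ (by positivity),
      show ∀ y, (2 * y + 1) / 2 = y by omega, Nat.add_mul_mod_self_left, Nat.mod_eq_of_lt (Nat.lt_size_self a)]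

@[fun_prop] theorem LS.drop {g : X → List ℕ} (hg : LS g) (k : ℕ) : LS fun x => (g x).drop k := by
  induction k with
  | zero => exact hg
  | succ k ih => exact ih.tail.congr fun x => by simp

@[fun_prop] theorem LS.getD {g : X → List ℕ} (hg : LS g) (k : ℕ) : LS fun x => (g x).getD k 0 :=
  (hg.drop k).headD.congr fun x => by simp [List.headD_eq_head?_getD]

theorem LS.table (T : ℕ → ℕ) (N : ℕ) {f : X → ℕ} (hf : LS f) : LS fun x => if f x < N then T (f x) else 0 := by
  induction N with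
  | zero => simpa using LS.const 0
  | succ N ih =>
    refine LS.congr (f := fun x => if f x = N then T N else if f x < N then T (f x) else 0)
      (LS.ite (by fun_prop) (by fun_prop) ih) fun x => ?_
    split_ifs with h1 h2 h3 h3 <;> first | rfl | omega | rw [h1]

@[fun_prop] theorem LS.pair {f g : X → ℕ} (hf : LS f) (hg : LS g) : LS fun x => Nat.pair (f x) (g x) := by
  unfold Nat.pair; fun_prop

@[fun_prop] theorem LS.sqrt {f : X → ℕ} (hf : LS f) : LS fun x => Nat.sqrt (f x) :=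
  (LS.findGreatest (R := fun x k => k * k ≤ f x) hf (by fun_prop)).congr fun x => by
    rw [Nat.findGreatest_eq_iff]
    exact ⟨Nat.sqrt_le_self _, fun _ => Nat.sqrt_le _, fun k hk _ h => absurd (Nat.le_sqrt.2 h) (by omega)⟩

@[fun_prop] theorem LS.unpair {f : X → ℕ} (hf : LS f) : LS fun x => Nat.unpair (f x) := by
  unfold Nat.unpair; fun_prop

end

/-- the size of a list -/
def sz (l : List ℕ) : ℕ := (l.map fun a => 2 * a.size + 1).sum

theorem encL_lt (l : List ℕ) : encL l < 2 ^ sz l := by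
  induction l with
  | nil => simp [encL, sz]
  | cons a l ih =>
    have h1 := Nat.lt_size_self a
    have e : sz (a :: l) = a.size + (1 + (a.size + sz l)) := by simp [sz]; ring
    rw [e, encL, cns, pow_add, pow_add, pow_add]
    apply Nat.mul_lt_mul_of_pos_left _ (by positivity)
    nlinarith

end Vale.Agent.P312
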