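import Vale.Agent.P312.Num

namespace Vale.Agent.P312
open Finset Function

structure Par where
  nq : ℕ
  ng : ℕ
  q0 : ℕ
  tq : ℕ → ℕ
  tg : ℕ → ℕ
  tm : ℕ → ℕ
  ho : ℕ → ℕ

namespace Par
variable (M : Par)

def β (ρ : ℕ) : ℕ := M.nq * (2 * ρ ^ 8 + ρ ^ 2 + 1)
def L (ρ : ℕ) : ℕ := (ρ ^ 2 + 1) * (M.β ρ + M.ng).size
def p (ρ : ℕ) : ℕ := Nat.findGreatest Nat.Prime (2 * ((ρ + 1) * M.L ρ + 2))
def blk (ρ e : ℕ) : ℕ := e / M.nq / ρ ^ 2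
def hl (e : ℕ) : ℕ := tab M.ho M.nq (e % M.nq)
def key (ρ x : ℕ) : ℕ := x % M.β ρ % M.nq + M.nq * dg M.ng (x / M.β ρ) (x % M.β ρ / M.nq % ρ ^ 2)
def loc (ρ P j x : ℕ) : ℕ :=
  if M.hl (x % M.β ρ) ≠ 0 ∨ M.blk ρ (x % M.β ρ) ≠ j then x else
    tab M.tq (M.nq * M.ng) (M.key ρ x) +
      M.nq * (x % M.β ρ / M.nq + tab M.tm (M.nq * M.ng) (M.key ρ x) - 1) +
      M.β ρ * numP M.ng (ρ ^ 2) (fun i => if i = x % M.β ρ / M.nq % ρ ^ 2 then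
        tab M.tg (M.nq * M.ng) (M.key ρ x) else dg M.ng (x / M.β ρ) i) P
def V (ρ P e C : ℕ) : ℕ :=
  iterC (fun _ x => M.loc ρ P (M.blk ρ e) x) (e + M.β ρ * C) (M.β ρ * P) (ρ ^ 5)
def Rep (ρ P j z s n C : ℕ) : ℕ :=
  iterC (fun i C => if M.blk ρ (dg (M.β ρ) z (s + i)) = j then M.V ρ P (dg (M.β ρ) z (s + i)) C / M.β ρ
    else C) C P n
def mg (ρ P z γ : ℕ) : ℕ :=
  numP (M.β ρ) (ρ ^ 2 + 1) (fun i => if i + ρ < ρ ^ 2 then dg (M.β ρ) z (i + ρ)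
    else dg (M.β ρ) γ (i + ρ - ρ ^ 2)) P
def chk (ρ P k γ u z C : ℕ) : ℕ :=
  if dg (M.β ρ) z (ρ ^ 2) = dg (M.β ρ) γ 0 ∧
    M.V ρ P (dg (M.β ρ) γ u) (M.Rep ρ P (M.blk ρ (dg (M.β ρ) γ u)) (M.mg ρ P z γ) (ρ ^ 2 - (k + 1) * ρ)
      (k * ρ + u) C) % M.β ρ = dg (M.β ρ) γ (u + 1) then 1 else 0

section
variable {X : Type} [Cd X] {ρ P j x e C z s n γ k u : X → ℕ}
@[fun_prop] theorem ls_β (h : LS ρ) : LS fun a => M.β (ρ a) := by unfold β; fun_prop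
@[fun_prop] theorem ls_L (h : LS ρ) : LS fun a => M.L (ρ a) := by unfold L; fun_prop
@[fun_prop] theorem ls_p (h : LS ρ) : LS fun a => M.p (ρ a) :=
  LS.findGreatest (R := fun _ => Nat.Prime) (by fun_prop) (by fun_prop)
@[fun_prop] theorem ls_blk (h : LS ρ) (h1 : LS e) : LS fun a => M.blk (ρ a) (e a) := by unfold blk; fun_prop
@[fun_prop] theorem ls_hl (h1 : LS e) : LS fun a => M.hl (e a) := by unfold hl; fun_prop
@[fun_prop] theorem ls_key (h : LS ρ) (h1 : LS x) : LS fun a => M.key (ρ a) (x a) := by unfold key; fun_prop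
@[fun_prop] theorem ls_loc (h : LS ρ) (h1 : LS P) (h2 : LS j) (h3 : LS x) :
    LS fun a => M.loc (ρ a) (P a) (j a) (x a) := by unfold loc; fun_prop
@[fun_prop] theorem ls_V (h : LS ρ) (h1 : LS P) (h2 : LS e) (h3 : LS C) :
    LS fun a => M.V (ρ a) (P a) (e a) (C a) := by unfold V; fun_prop
@[fun_prop] theorem ls_Rep (h : LS ρ) (h1 : LS P) (h2 : LS j) (h3 : LS z) (h4 : LS s) (h5 : LS n) (h6 : LS C) :
    LS fun a => M.Rep (ρ a) (P a) (j a) (z a) (s a) (n a) (C a) := by unfold Rep; fun_prop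
@[fun_prop] theorem ls_mg (h : LS ρ) (h1 : LS P) (h3 : LS z) (h4 : LS γ) :
    LS fun a => M.mg (ρ a) (P a) (z a) (γ a) := by unfold mg; fun_prop
@[fun_prop] theorem ls_chk (h : LS ρ) (h1 : LS P) (h2 : LS k) (h3 : LS γ) (h4 : LS u) (h5 : LS z) (h6 : LS C) :
    LS fun a => M.chk (ρ a) (P a) (k a) (γ a) (u a) (z a) (C a) := by unfold chk; fun_prop
end

/-- outer control -/
def s0 (ρ o P A t i : ℕ) : List ℕ :=
  if t = 0 then [ρ + 1, 0, 1, 0, 0, 0, 0, 2, 0] else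
  if t = 2 then (if i < M.L ρ then [ρ, 0, P * M.p ρ, 0, 0, 0, 0, 2, i + 1] else [ρ, 0, P, 0, 0, 0, 0, 3]) else
  if t = 3 then (if o < ρ ^ 2 then [ρ, o, P, 0, 0, 0, 0, 5, ρ ^ 2, 1, 4] else [ρ]) else
  if M.hl (dg (M.β ρ) (numP 2 (M.L ρ) (dg (M.p ρ) A) P) (ρ ^ 2)) = 0 then [ρ, o + 1, P, 0, 0, 0, 0, 3] else
    [ρ, o, P, 0, 0, 0, 0, 1, M.hl (dg (M.β ρ) (numP 2 (M.L ρ) (dg (M.p ρ) A) P) (ρ ^ 2))]

/-- new stack -/
def stk (ρ P B X s t : ℕ) (a : List ℕ) : List ℕ :=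
  let a0 := a.getD 0 0; let a1 := a.getD 1 0; let a2 := a.getD 2 0; let a3 := a.getD 3 0
  let a4 := a.getD 4 0; let a5 := a.getD 5 0; let a6 := a.getD 6 0; let a7 := a.getD 7 0
  if t = 5 then (if a0 = 0 then a.drop 2 else 6 :: (a0 - 1) :: a1 :: 1 :: a.drop 2) else
  if t = 6 then (if a2 < M.p ρ then 15 :: 5 :: a0 :: a2 :: 15 :: 7 :: a0 :: a1 :: a2 :: 0 :: 15 :: 5 :: a0 ::
    (M.p ρ - a2) :: 15 :: 6 :: a0 :: a1 :: (a2 + 1) :: a.drop 3 else a.drop 3) else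
  if t = 7 then (if a3 < pw (M.β ρ) (ρ + 1) P then 8 :: a0 :: a1 :: a2 :: a3 :: 0 :: 1 :: 7 :: a0 :: a1 :: a2 ::
    (a3 + 1) :: a.drop 4 else a.drop 4) else
  if t = 8 then (if a4 < ρ then 9 :: a0 :: a1 :: a2 :: a3 :: a4 :: a5 :: 1 :: 0 :: a.drop 6 else a.drop 6) else
  if t = 9 then (if a6 < M.p ρ then 11 :: (a0 / ρ) :: M.blk ρ (dg (M.β ρ) a3 a4) :: a6 :: 10 :: a.drop 0 else
    8 :: a0 :: a1 :: a2 :: a3 :: (a4 + 1) :: ((M.p ρ - 1) * (a5 * a7) % M.p ρ) :: a.drop 8) else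
  if t = 10 then 11 :: (a0 / ρ) :: M.blk ρ (dg (M.β ρ) a3 a4) :: (M.p ρ - a6) :: 9 :: a0 :: a1 :: a2 :: a3 ::
    a4 :: a5 :: (a6 + 1) :: ((a7 + mleN (M.p ρ) (M.L ρ) P (fun z => mleN (M.p ρ) (M.L ρ) P
      (fun C => M.chk ρ P (a0 % ρ) a3 a4 z C) (inv (M.p ρ) a6) X) (inv (M.p ρ) a2) B) % M.p ρ) :: a.drop 8 else
  if t = 11 then (if a0 = 0 then 14 :: a1 :: a2 :: 0 :: 0 :: a.drop 3 else
    12 :: (a0 - 1) :: a1 :: a2 :: 1 :: a.drop 3) else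
  if t = 12 then (if a3 < M.p ρ then 5 :: ((a0 + 1) * ρ) :: a3 :: 16 :: 11 :: a0 :: a1 :: a3 :: 16 :: 13 ::
    a1 :: a2 :: a3 :: 5 :: ((a0 + 1) * ρ) :: (M.p ρ - a3) :: 16 :: 11 :: a0 :: a1 :: (M.p ρ - a3) :: 16 ::
    12 :: a0 :: a1 :: a2 :: (a3 + 1) :: a.drop 4 else a.drop 4) else
  if t = 13 then a.drop 3 else
  if t = 14 then (if a2 < ρ ^ 2 then 14 :: a0 :: a1 :: (a2 + 1) :: (a3 + s * pw M.ng a2 P) :: a.drop 4
    else a.drop 4) else a.drop 0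

def nA (ρ o P A B t a0 a1 a2 a3 a4 a5 : ℕ) : ℕ :=
  if t = 5 ∧ a0 = 0 then upd (M.p ρ) (M.L ρ) P A fun i =>
    a1 * dg 2 (numP (M.β ρ) (ρ ^ 2 + 1) (fun _ => M.q0 + M.nq * (ρ ^ 8 + o)) P) i else
  if t = 8 ∧ ¬ a4 < ρ then upd (M.p ρ) (M.L ρ) P A fun i => (M.p ρ - 1) * (a1 * (a5 *
    mleN (M.p ρ) (M.L ρ) P (fun z => dg 2 (M.mg ρ P z a3) i) (inv (M.p ρ) a2) B)) else
  if t = 15 then B else A

def nX (ρ P A X Y t a0 a1 a2 a3 : ℕ) : ℕ :=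
  if t = 13 then upd (M.p ρ) (M.L ρ) P X fun i => (M.p ρ - 1) * (a1 *
    mleN (M.p ρ) (M.L ρ) P (fun z => mleN (M.p ρ) (M.L ρ) P (fun C => dg 2 (M.Rep ρ P a0 z 0 (ρ ^ 2) C) i)
      (inv (M.p ρ) a2) Y) (inv (M.p ρ) a2) A) else
  if t = 14 ∧ ¬ a2 < ρ ^ 2 then upd (M.p ρ) (M.L ρ) P X fun i => a1 * dg 2 a3 i else
  if t = 16 then Y else X

def step (x : List ℕ × ℕ) : List ℕ :=
  let l := x.1
  let ρ := l.getD 0 0; let o := l.getD 1 0; let P := l.getD 2 0; let A := l.getD 3 0; let B := l.getD 4 0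
  let X := l.getD 5 0; let Y := l.getD 6 0; let t := l.getD 7 0
  if t < 5 then M.s0 ρ o P A t (l.getD 8 0) else
    ρ :: o :: P :: M.nA ρ o P A B t (l.getD 8 0) (l.getD 9 0) (l.getD 10 0) (l.getD 11 0) (l.getD 12 0)
      (l.getD 13 0) :: (if t = 15 then A else B) ::
      M.nX ρ P A X Y t (l.getD 8 0) (l.getD 9 0) (l.getD 10 0) (l.getD 11 0) :: (if t = 16 then X else Y) ::
      M.stk ρ P B X x.2 t (l.drop 8)

def addr (l : List ℕ) : ℕ :=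
  l.getD 8 0 * l.getD 0 0 ^ 2 + l.getD 10 0 + 1 - (l.getD 0 0 ^ 8 + l.getD 1 0)

def done (l : List ℕ) : ℕ := if l.getD 7 0 = 1 then l.getD 8 0 else 0

section
variable {Z : Type} [Cd Z] {ρ o P A B X Y s t i a0 a1 a2 a3 a4 a5 : Z → ℕ} {a : Z → List ℕ}
@[fun_prop] theorem ls_s0 (h : LS ρ) (h1 : LS o) (h2 : LS P) (h3 : LS A) (h4 : LS t) (h5 : LS i) :
    LS fun x => M.s0 (ρ x) (o x) (P x) (A x) (t x) (i x) := by
  have : LS fun x : Z × ℕ => dg (M.p (ρ x.1)) (A x.1) x.2 := by fun_prop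
  unfold s0; fun_prop
set_option maxRecDepth 4000 in
@[fun_prop] theorem ls_stk (h : LS ρ) (h1 : LS P) (h2 : LS B) (h3 : LS X) (h4 : LS s) (h5 : LS t) (h6 : LS a) :
    LS fun x => M.stk (ρ x) (P x) (B x) (X x) (s x) (t x) (a x) := by
  unfold stk; dsimp only; fun_prop (maxSteps := 1000000)
@[fun_prop] theorem ls_nA (h : LS ρ) (h1 : LS o) (h2 : LS P) (h3 : LS A) (h4 : LS B) (h5 : LS t) (h6 : LS a0)
    (h7 : LS a1) (h8 : LS a2) (h9 : LS a3) (h10 : LS a4) (h11 : LS a5) :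
    LS fun x => M.nA (ρ x) (o x) (P x) (A x) (B x) (t x) (a0 x) (a1 x) (a2 x) (a3 x) (a4 x) (a5 x) := by
  unfold nA; fun_prop
@[fun_prop] theorem ls_nX (h : LS ρ) (h2 : LS P) (h3 : LS A) (h4 : LS X) (h1 : LS Y) (h5 : LS t) (h6 : LS a0)
    (h7 : LS a1) (h8 : LS a2) (h9 : LS a3) :
    LS fun x => M.nX (ρ x) (P x) (A x) (X x) (Y x) (t x) (a0 x) (a1 x) (a2 x) (a3 x) := by
  unfold nX; fun_prop
end

theorem ls_step : LS M.step := by unfold step; dsimp only; fun_prop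
theorem ls_addr : LS addr := by unfold addr; fun_prop
theorem ls_done : LS done := by unfold done; fun_prop

end Par
end Vale.Agent.P312
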