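import Vale.Agent.P312.Sim

namespace Vale.Agent.P312
open Finset Function

def num (β n : ℕ) (f : ℕ → ℕ) : ℕ := ∑ i ∈ range n, f i * β ^ i
def numP (β n : ℕ) (f : ℕ → ℕ) (P : ℕ) : ℕ := ∑ i ∈ range n, f i * pw β i P
def sumN (n : ℕ) (f : ℕ → ℕ) : ℕ := ∑ i ∈ range n, f i
def iterC (f : ℕ → ℕ → ℕ) (a M : ℕ) : ℕ → ℕ
  | 0 => min a M
  | i + 1 => min (f i (iterC f a M i)) M
def tab (T : ℕ → ℕ) (N x : ℕ) : ℕ := if x < N then T x else 0

section
variable {X : Type} [Cd X]

@[fun_prop] theorem LS.numP {β n P : X → ℕ} {f : X → ℕ → ℕ} (h1 : LS β) (h2 : LS n)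
    (h3 : LS fun p : X × ℕ => f p.1 p.2) (h4 : LS P) : LS fun x => numP (β x) (n x) (f x) (P x) :=
  LS.sum h2 (by fun_prop)

@[fun_prop] theorem LS.sumN {n : X → ℕ} {f : X → ℕ → ℕ} (h2 : LS n)
    (h3 : LS fun p : X × ℕ => f p.1 p.2) : LS fun x => sumN (n x) (f x) := LS.sum h2 h3

@[fun_prop] theorem LS.min {f g : X → ℕ} (hf : LS f) (hg : LS g) : LS fun x => min (f x) (g x) :=
  LS.congr (f := fun x => f x - (f x - g x)) (by fun_prop) fun x => by omega

@[fun_prop] theorem LS.iterC {a M n : X → ℕ} {f : X → ℕ → ℕ → ℕ}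
    (h1 : LS fun p : (X × ℕ) × ℕ => f p.1.1 p.1.2 p.2) (h2 : LS a) (h3 : LS M) (h4 : LS n) :
    LS fun x => iterC (f x) (a x) (M x) (n x) :=
  LS.prec (g := fun p => Min.min (f p.1.1 p.1.2 p.2) (M p.1.1)) h4 (h2.min h3) (h1.min (by fun_prop)) h3
    (fun x i => P312.iterC (f x) (a x) (M x) i) (fun _ => rfl) (fun _ _ => rfl)
    fun x i _ => by cases i <;> exact min_le_right _ _

@[fun_prop] theorem LS.tab (T : ℕ → ℕ) (N : ℕ) {f : X → ℕ} (hf : LS f) : LS fun x => tab T N (f x) :=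
  LS.table T N hf
end

theorem iterC_eq {f : ℕ → ℕ → ℕ} {a M n : ℕ} (R : ℕ → ℕ) (h0 : R 0 = a)
    (hs : ∀ i < n, R (i + 1) = f i (R i)) (hM : ∀ i ≤ n, R i ≤ M) : iterC f a M n = R n := by
  induction n with
  | zero => rw [iterC, ← h0, min_eq_left (hM 0 le_rfl)]
  | succ n ih =>
    rw [iterC, ih (fun i hi => hs i (by omega)) fun i hi => hM i (by omega), ← hs n (by omega),
      min_eq_left (hM _ le_rfl)]

theorem num_congr {β n : ℕ} {f g : ℕ → ℕ} (h : ∀ i < n, f i = g i) : num β n f = num β n g :=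
  sum_congr rfl fun i hi => by rw [h i (mem_range.1 hi)]

theorem numP_eq {β n P : ℕ} (f : ℕ → ℕ) (hβ : 0 < β) (h : β ^ n ≤ P) : numP β n f P = num β n f :=
  sum_congr rfl fun i hi => by
    rw [pw_eq ((Nat.pow_le_pow_right hβ (mem_range.1 hi).le).trans h)]

theorem digit_sum (b N : ℕ) (s : ℕ → ℕ) (h : ∀ i < N, s i < b) :
    num b N s < b ^ N ∧ ∀ k < N, dg b (num b N s) k = s k := by
  unfold num dg
  induction N generalizing s with
  | zero => simp
  | succ N ih =>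
    obtain ⟨h1, h2⟩ := ih (fun i => s (i + 1)) fun i hi => h _ (by omega)
    have h0 := h 0 (by omega)
    have e : ∑ i ∈ range (N + 1), s i * b ^ i = s 0 + b * ∑ i ∈ range N, s (i + 1) * b ^ i := by
      rw [sum_range_succ', mul_sum, add_comm]
      congr 1
      · simp
      · exact sum_congr rfl fun i _ => by ring
    rw [e]
    refine ⟨by rw [pow_succ]; nlinarith, fun k hk => ?_⟩
    rcases k with _ | k
    · simp [Nat.mod_eq_of_lt h0]
    · rw [pow_succ', ← Nat.div_div_eq_div_mul, Nat.add_mul_div_left _ _ (by omega), Nat.div_eq_of_lt h0,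
        zero_add, h2 k (by omega)]

theorem num_lt {b N : ℕ} {s : ℕ → ℕ} (h : ∀ i < N, s i < b) : num b N s < b ^ N := (digit_sum b N s h).1
theorem dg_num {b N k : ℕ} {s : ℕ → ℕ} (h : ∀ i < N, s i < b) (hk : k < N) : dg b (num b N s) k = s k :=
  (digit_sum b N s h).2 k hk
theorem dg_lt {b : ℕ} (hb : 0 < b) (a i : ℕ) : dg b a i < b := Nat.mod_lt _ hb

theorem digit_ext (b N : ℕ) {c c' : ℕ} (h : c < b ^ N) (h' : c' < b ^ N)
    (e : ∀ k < N, dg b c k = dg b c' k) : c = c' := by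
  unfold dg at e
  induction N generalizing c c' with
  | zero => simp at h h'; omega
  | succ N ih =>
    have h1 : c / b = c' / b := ih (Nat.div_lt_of_lt_mul (by rwa [pow_succ'] at h))
      (Nat.div_lt_of_lt_mul (by rwa [pow_succ'] at h')) fun k hk => by
        have := e (k + 1) (by omega)
        rwa [pow_succ', ← Nat.div_div_eq_div_mul, ← Nat.div_div_eq_div_mul] at this
    have h2 := e 0 (by omega)
    simp only [pow_zero, Nat.div_one] at h2
    rw [← Nat.div_add_mod c b, ← Nat.div_add_mod c' b, h1, h2]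

theorem num_dg {b N a : ℕ} (hb : 0 < b) (h : a < b ^ N) : num b N (dg b a) = a :=
  digit_ext b N (num_lt fun _ _ => dg_lt hb _ _) h fun _ hk => dg_num (fun _ _ => dg_lt hb _ _) hk

/-! polynomial functions of one variable -/
section
variable {F : Type} [Field F]

def Deg (d : ℕ) (φ : F → F) : Prop := ∃ q : Polynomial F, q.natDegree ≤ d ∧ ∀ x, φ x = q.eval x

theorem Deg.mono {d e : ℕ} {φ : F → F} (h : Deg d φ) (he : d ≤ e) : Deg e φ :=
  h.imp fun _ H => ⟨H.1.trans he, H.2⟩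
theorem Deg.const (c : F) : Deg 0 fun _ => c := ⟨.C c, by simp, by simp⟩
theorem Deg.lin (a c : F) : Deg 1 fun x => a + x * c :=
  ⟨.C c * .X + .C a, by compute_degree, fun x => by simp; ring⟩
theorem Deg.mul {d e : ℕ} {φ ψ : F → F} (h : Deg d φ) (h' : Deg e ψ) : Deg (d + e) fun x => φ x * ψ x := by
  obtain ⟨q, h1, h2⟩ := h; obtain ⟨r, h3, h4⟩ := h'
  exact ⟨q * r, Polynomial.natDegree_mul_le.trans (by omega), fun x => by simp [h2, h4]⟩
theorem Deg.sum {d n : ℕ} {φ : ℕ → F → F} (h : ∀ i < n, Deg d (φ i)) : Deg d fun x => ∑ i ∈ range n, φ i x := by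
  induction n with
  | zero => simpa using (Deg.const (0 : F)).mono (Nat.zero_le d)
  | succ n ih =>
    obtain ⟨q, h1, h2⟩ := ih fun i hi => h i (by omega)
    obtain ⟨r, h3, h4⟩ := h n (by omega)
    exact ⟨q + r, (Polynomial.natDegree_add_le _ _).trans (by omega), fun x => by
      beta_reduce; rw [sum_range_succ, Polynomial.eval_add, ← h2, ← h4]⟩
theorem Deg.prod {d n : ℕ} {φ : ℕ → F → F} (h : ∀ i < n, Deg d (φ i)) :
    Deg (n * d) fun x => ∏ i ∈ range n, φ i x := by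
  induction n with
  | zero => simpa using Deg.const (1 : F)
  | succ n ih =>
    simpa [prod_range_succ, add_mul] using (ih fun i hi => h i (by omega)).mul (h n (by omega))

def bits (z : ℕ) : ℕ → F := fun i => (dg 2 z i : F)
def eqw (L z : ℕ) (y : ℕ → F) : F := ∏ i ∈ range L, if dg 2 z i = 1 then y i else 1 - y i
def mle (L : ℕ) (f : ℕ → F) (y : ℕ → F) : F := ∑ z ∈ range (2 ^ L), f z * eqw L z y

theorem mle_bits {L z : ℕ} (hz : z < 2 ^ L) (f : ℕ → F) : mle L f (bits z) = f z := by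
  rw [mle, sum_eq_single_of_mem z (mem_range.2 hz) fun z' hz' hne => ?_]
  · rw [eqw, prod_eq_one, mul_one]
    intro i _
    have := dg_lt (b := 2) (by omega) z i
    split_ifs with h
    · simp [bits, h]
    · simp [bits, show dg 2 z i = 0 by omega]
  · obtain ⟨k, hk, h⟩ : ∃ k < L, dg 2 z' k ≠ dg 2 z k := by
      by_contra! h; exact hne (digit_ext 2 L (mem_range.1 hz') hz h)
    rw [eqw, prod_eq_zero (mem_range.2 hk), mul_zero]
    have := dg_lt (b := 2) (by omega) z k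
    have := dg_lt (b := 2) (by omega) z' k
    split_ifs with h
    · simp [bits, show dg 2 z k = 0 by omega]
    · simp [bits, show dg 2 z k = 1 by omega]

theorem Deg.mle {L d : ℕ} {f : ℕ → F → F} (h : ∀ z, Deg d (f z)) (t y : ℕ → F) :
    Deg (d + L) fun x => mle L (fun z => f z x) (t + x • y) := by
  refine Deg.sum fun z _ => (h z).mul ?_
  have := Deg.prod (n := L) (d := 1) (φ := fun i x => if dg 2 z i = 1 then t i + x * y i else 1 - (t i + x * y i))
    fun i _ => by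
      split_ifs
      · exact Deg.lin _ _
      · simpa [sub_eq_add_neg, add_comm, add_left_comm, add_assoc] using Deg.lin (1 - t i) (-y i)
  simpa [eqw] using this

end

theorem Deg.cm {p d : ℕ} [Fact p.Prime] {φ : ZMod p → ZMod p} (h : Deg d φ) (hd : d < p - 1) :
    ∑ μ ∈ Ico 1 p, φ ((μ : ZMod p)⁻¹) = -φ 0 := by
  obtain ⟨q, h1, h2⟩ := h
  have h3 : ∑ x : ZMod p, φ x = 0 := by
    simp only [h2, Polynomial.eval_eq_sum_range, ← sum_comm (s := range _), ← mul_sum]
    exact sum_eq_zero fun i hi => by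
      rw [FiniteField.sum_pow_lt_card_sub_one _ _ (by have := mem_range.1 hi; rw [ZMod.card]; omega), mul_zero]
  have h4 : ∑ μ ∈ range p, φ ((μ : ZMod p)⁻¹) = ∑ x : ZMod p, φ x := by
    rw [← Equiv.sum_comp (Equiv.inv (ZMod p)) φ]
    exact sum_nbij' (fun μ => (μ : ZMod p)) ZMod.val (by simp) (fun x _ => by simp [ZMod.val_lt])
      (fun μ hμ => ZMod.val_cast_of_lt (mem_range.1 hμ)) (by simp) (by simp)
  rw [range_eq_Ico, sum_eq_sum_Ico_succ_bot (Fact.out : p.Prime).pos, h3] at h4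
  simp only [Nat.cast_zero, inv_zero] at h4
  linear_combination h4

/-! numeric versions -/

def prodM (p n : ℕ) (f : ℕ → ℕ) : ℕ := iterC (fun i r => r * f i % p) 1 p n
def eqN (p L z ν R : ℕ) : ℕ := prodM p L fun i => if dg 2 z i = 1 then ν * dg p R i else 1 + (p - 1) * (ν * dg p R i)
def mleN (p L P : ℕ) (f : ℕ → ℕ) (ν R : ℕ) : ℕ := sumN (pw 2 L P) fun z => f z * eqN p L z ν R
def upd (p L P R : ℕ) (f : ℕ → ℕ) : ℕ := numP p L (fun i => (dg p R i + f i) % p) P
def inv (p μ : ℕ) : ℕ := pw μ (p - 2) (p - 1)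

section
variable {X : Type} [Cd X]
@[fun_prop] theorem LS.mleN {p L P ν R : X → ℕ} {f : X → ℕ → ℕ} (h1 : LS p) (h2 : LS L) (h3 : LS P)
    (h4 : LS fun q : X × ℕ => f q.1 q.2) (h5 : LS ν) (h6 : LS R) :
    LS fun x => mleN (p x) (L x) (P x) (f x) (ν x) (R x) := by
  unfold P312.mleN eqN prodM; fun_prop
@[fun_prop] theorem LS.upd {p L P R : X → ℕ} {f : X → ℕ → ℕ} (h1 : LS p) (h2 : LS L) (h3 : LS P)
    (h6 : LS R) (h4 : LS fun q : X × ℕ => f q.1 q.2) : LS fun x => upd (p x) (L x) (P x) (R x) (f x) := by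
  unfold P312.upd; fun_prop
@[fun_prop] theorem LS.inv {p μ : X → ℕ} (h1 : LS p) (h2 : LS μ) : LS fun x => inv (p x) (μ x) := by
  unfold P312.inv; fun_prop
end

section
variable {p : ℕ} [hp : Fact p.Prime]

def toN (L : ℕ) (y : ℕ → ZMod p) : ℕ := num p L fun i => (y i).val

theorem toN_lt (L : ℕ) (y : ℕ → ZMod p) : toN L y < p ^ L := num_lt fun _ _ => ZMod.val_lt _
theorem dg_toN {L i : ℕ} (y : ℕ → ZMod p) (hi : i < L) : dg p (toN L y) i = (y i).val :=
  dg_num (fun _ _ => ZMod.val_lt _) hi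

theorem cast_pred : ((p - 1 : ℕ) : ZMod p) = -1 := by
  rw [Nat.cast_sub hp.out.pos]; simp

theorem cast_prodM (n : ℕ) (f : ℕ → ℕ) : (prodM p n f : ZMod p) = ∏ i ∈ range n, (f i : ZMod p) := by
  have := hp.out.pos
  unfold prodM
  induction n with
  | zero => simp [iterC, min_eq_left (show 1 ≤ p from this)]
  | succ n ih => rw [iterC, min_eq_left (Nat.mod_lt _ this).le, prod_range_succ, ← ih]; simp

theorem cast_mleN (L : ℕ) (f : ℕ → ℕ) (ν : ℕ) (y : ℕ → ZMod p) :
    (mleN p L (p ^ L) f ν (toN L y) : ZMod p) = mle L (fun z => (f z : ZMod p)) ((ν : ZMod p) • y) := by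
  rw [mleN, pw_eq (Nat.pow_le_pow_left hp.out.two_le _), sumN, mle, Nat.cast_sum]
  refine sum_congr rfl fun z _ => ?_
  rw [Nat.cast_mul, eqN, cast_prodM, eqw]
  congr 1
  refine prod_congr rfl fun i hi => ?_
  rw [dg_toN y (mem_range.1 hi)]
  split_ifs
  · simp
  · push_cast [cast_pred]; simp; ring

theorem upd_eq (L : ℕ) (y : ℕ → ZMod p) (f : ℕ → ℕ) :
    upd p L (p ^ L) (toN L y) f = toN L (y + fun i => (f i : ZMod p)) := by
  rw [upd, numP_eq _ hp.out.pos le_rfl]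
  refine num_congr fun i hi => ?_
  rw [dg_toN y hi, Pi.add_apply, ZMod.val_add, ZMod.val_natCast, Nat.add_mod_mod]

theorem cast_inv (h2 : 2 < p) (μ : ℕ) : (inv p μ : ZMod p) = (μ : ZMod p)⁻¹ := by
  have := hp.out.pos
  rw [inv, pw, show p - 1 + 1 = p by omega, ZMod.natCast_mod, Nat.cast_pow]
  by_cases h : (μ : ZMod p) = 0
  · rw [h, zero_pow (by omega), inv_zero]
  · refine eq_inv_of_mul_eq_one_left ?_
    rw [← pow_succ, show p - 2 + 1 = p - 1 by omega, ZMod.pow_card_sub_one_eq_one h]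

theorem read_bits {L z : ℕ} (hz : z < 2 ^ L) :
    numP 2 L (dg p (toN L (bits z : ℕ → ZMod p))) (p ^ L) = z := by
  rw [numP_eq _ (by omega) (Nat.pow_le_pow_left hp.out.two_le _)]
  refine (num_congr fun i hi => ?_).trans (num_dg (by omega) hz)
  rw [dg_toN _ hi, bits, ZMod.val_cast_of_lt ((dg_lt (by omega) _ _).trans_le hp.out.two_le)]

end

end Vale.Agent.P312
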