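import Vale.Agent.P312.Tape

namespace Vale.Agent.P312
open Finset Function

theorem Steps'.iter {f S a b} (h : Steps' f S a b) :
    ∃ T, f^[T] a = b ∧ ∀ t < T, sz (f^[t] a) ≤ S ∧ Par.done (f^[t] a) = 0 := by
  induction h with
  | refl => exact ⟨0, rfl, by simp⟩
  | step h1 h2 _ ih =>
    obtain ⟨T, e, h⟩ := ih
    refine ⟨T + 1, e, fun t ht => ?_⟩
    rcases t with _ | t
    · exact ⟨h1, h2⟩
    · exact h t (by omega)

def Par.S (M : Par) (ρ : ℕ) : ℕ := 2 * M.Lf ρ + (2 * ρ ^ 2 + 1) * M.W ρ + 2 * ρ * M.Big ρ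

theorem size_add_pow {a b z : ℕ} (m : ℕ) (ha : a < 2 ^ z) (hb : b < 2 ^ z) : (a + b ^ m).size ≤ z * m + z + 1 := by
  have h1 : b ^ m ≤ 2 ^ (z * m + z) := by
    refine le_trans ?_ (Nat.pow_le_pow_right (by omega) (Nat.le_add_right _ z))
    rw [pow_mul]; exact Nat.pow_le_pow_left hb.le _
  have h2 : 2 ^ z ≤ 2 ^ (z * m + z) := Nat.pow_le_pow_right (by omega) (by omega)
  exact Nat.size_le.2 (by rw [pow_succ]; omega)

theorem Par.S_le (M : Par) : ∃ κ, ∀ ρ, M.S ρ ≤ κ * ((ρ + 1) ^ 2 * (ρ + 2).size ^ 2) := by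
  obtain ⟨F, ⟨⟨g, ⟨k, hk⟩, hg⟩, -⟩, e⟩ := (show LS fun ρ => M.Z ρ + M.ng by unfold Par.Z; fun_prop) ()
  refine ⟨1000 * (k + 1) ^ 2, fun ρ => ?_⟩
  have h1 : M.Z ρ + M.ng ≤ (ρ + 2) ^ k := by
    have := (hg (Cd.enc ρ) ρ fun _ => le_rfl).trans (hk ρ)
    rwa [e] at this
  set l := (ρ + 2).size with hl
  have l1 : 1 ≤ l := Nat.size_pos.2 (by omega)
  set z := (k + 1) * l with hz
  have h2 : M.Z ρ + M.ng < 2 ^ z := by
    refine h1.trans_lt ?_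
    rw [hz, mul_comm, pow_mul]
    exact (Nat.pow_lt_pow_right (by omega) (Nat.lt_succ_self k)).trans_le
      (Nat.pow_le_pow_left (Nat.lt_size_self _).le _)
  have z1 : 1 ≤ z := Nat.mul_pos (by omega) l1
  have h3 : M.Z ρ < 2 ^ z := by omega
  have h4 : M.L ρ ≤ (ρ ^ 2 + 1) * z := Nat.mul_le_mul_left _ (Nat.size_le.2 (by unfold Par.Z at h2; omega))
  have h5 := size_add_pow (b := M.p ρ) (M.L ρ) h3 (by unfold Par.Z at h2; omega)
  have h6 := size_add_pow (b := M.β ρ) (ρ + 1) h3 (by unfold Par.Z at h2; omega)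
  have h7 := Nat.size_le.2 h3
  have h8 : z * M.L ρ ≤ (ρ ^ 2 + 1) * z ^ 2 := by nlinarith
  have a1 : M.Lf ρ ≤ 224 * ((ρ ^ 2 + 1) * z ^ 2) := by
    unfold Par.Lf wt; nlinarith [Nat.zero_le (ρ ^ 2 * z ^ 2)]
  have a2 : M.W ρ ≤ 96 * z ^ 2 := by unfold Par.W wt; nlinarith
  have a3 : M.Big ρ ≤ 64 * (ρ * z ^ 2) + 224 * z ^ 2 := by
    have : ρ * z ≤ ρ * z ^ 2 := Nat.mul_le_mul_left _ (by nlinarith)
    unfold Par.Big wt; nlinarith
  have a4 := Nat.mul_le_mul_left (2 * ρ ^ 2 + 1) a2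
  have a5 := Nat.mul_le_mul_left (2 * ρ) a3
  rw [show 1000 * (k + 1) ^ 2 * ((ρ + 1) ^ 2 * l ^ 2) = 1000 * (ρ + 1) ^ 2 * z ^ 2 by rw [hz]; ring]
  unfold Par.S
  nlinarith [Nat.zero_le (ρ ^ 2 * z ^ 2), Nat.zero_le (ρ * z ^ 2), Nat.zero_le (z ^ 2)]

namespace OneTape
variable {α : Type} {T : OneTape α} {w : List α} {S a : ℕ}

variable (T w S a) in
def Good (l : List ℕ) : Prop :=
  ∃ l', Steps' (nxt T.par.step Par.addr T.sy w) S l l' ∧ sz l' ≤ S ∧ Par.done l' = a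

theorem Good.of {l l' : List ℕ} (h : Steps' (nxt T.par.step Par.addr T.sy w) S l l') (h' : T.Good w S a l') :
    T.Good w S a l := h'.imp fun _ H => ⟨h.trans H.1, H.2⟩

theorem one {ρ : ℕ} {l l' : List ℕ} (hS : T.par.S ρ ≤ S) (h1 : Sm (T.par.Z ρ + T.par.P ρ) l)
    (h2 : Par.done l = 0) (h3 : nxt T.par.step Par.addr T.sy w l = l') :
    Steps' (nxt T.par.step Par.addr T.sy w) S l l' :=
  .step (h1.sz.trans (le_trans (by unfold Par.S Par.Lf; omega) hS)) h2 (h3 ▸ .refl _)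

theorem offs {ρ t : ℕ} (hS : T.par.S ρ ≤ S) (ht : T.Hl w t) (k o : ℕ) (ho : o + k = ρ ^ 2)
    (h : T.Good w S (oc (T.out (T.run w t).state)) [ρ] ∨ ∃ o', o ≤ o' ∧ o' < ρ ^ 2 ∧ T.Hl w (T.ts w ρ o' (ρ ^ 3))) :
    T.Good w S (oc (T.out (T.run w t).state)) [ρ, o, T.par.P ρ, 0, 0, 0, 0, 3] := by
  have hρ : ρ ≤ ρ ^ 2 := Nat.le_self_pow (by omega) _
  induction k generalizing o with
  | zero =>
    refine .of (one hS (by simp [Sm, Par.Z]; omega) rfl ?_) (h.resolve_right fun ⟨o', h⟩ => by omega)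
    simp [nxt, Par.step, Par.s0, show ¬ o < ρ ^ 2 by omega]
  | succ k ih =>
    have ho' : o < ρ ^ 2 := by omega
    let c := T.cx w ho'
    have hz : toN (c.L c.ρ) (0 : c.Vec) = 0 := by simp [toN, num]
    have h1 := (Cx.spec_all (c := c) (ρ ^ 2) le_rfl).1 1 (T.par.p_spec ρ).1.one_le 0 0 0 0 [4]
    have h2 : c.H + c.nT (ρ ^ 2) + sz [4] ≤ S := by
      have a1 : sz [4] ≤ T.par.W ρ := Sm.sz (by simp [Sm, Par.Z])
      have a2 := wt_mono (show ρ ≤ T.par.Z ρ + T.par.P ρ by unfold Par.Z; omega)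
      have a3 := wt_mono (show o ≤ T.par.Z ρ + T.par.P ρ by unfold Par.Z; omega)
      have a4 := wt_mono (show T.par.P ρ ≤ T.par.Z ρ + T.par.P ρ by omega)
      have a5 : (ρ ^ 2 + ρ - 1) / ρ ≤ ρ := Nat.lt_succ_iff.1 (Nat.div_lt_of_lt_mul (by
        have : 1 ≤ ρ := c.hρ
        rw [Nat.mul_succ, ← sq]; omega))
      have a6 := Nat.mul_le_mul_right (T.par.Big ρ) (Nat.mul_le_mul_left 2 a5)
      refine le_trans ?_ hS
      show wt ρ + wt o + 5 * wt (T.par.P ρ) + (T.par.Lf ρ + 2 * ρ ^ 2 * T.par.W ρ +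
        2 * ((ρ ^ 2 + ρ - 1) / ρ) * T.par.Big ρ) + sz [4] ≤ _
      unfold Par.S
      rw [add_mul (2 * ρ ^ 2)]
      unfold Par.Lf at *
      omega
    have h3 : Steps' (nxt T.par.step Par.addr T.sy w) S [ρ, o, T.par.P ρ, 0, 0, 0, 0, 5, ρ ^ 2, 1, 4]
        [ρ, o, T.par.P ρ, toN (T.par.L ρ) (bits (c.Tb (ρ ^ 2)) : ℕ → ZMod (T.par.p ρ)), 0, 0, 0, 4] := by
      have := h1.mono h2
      simp only [Cx.cf, Nat.cast_one, one_smul, zero_add, hz] at this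
      exact this
    have h4 : T.par.hl (dg (T.par.β ρ) (numP 2 (T.par.L ρ) (dg (T.par.p ρ) (toN (T.par.L ρ)
        (bits (c.Tb (ρ ^ 2)) : ℕ → ZMod (T.par.p ρ)))) (T.par.P ρ)) (ρ ^ 2)) =
        oc (T.out (T.run w (T.ts w ρ o (ρ ^ 3))).state) := by
      rw [read_bits (show c.Tb (ρ ^ 2) < 2 ^ T.par.L ρ from Cx.Tb_lt (c := c) le_rfl), ← hl_ent (ρ := ρ) (o := o)]
      congr 1
      refine (Cx.dg_Tb (c := c) le_rfl le_rfl).trans ?_
      rw [Nat.add_sub_cancel, ← pow_succ]; rfl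
    have h5 := (toN_lt (T.par.L ρ) (bits (c.Tb (ρ ^ 2)) : ℕ → ZMod (T.par.p ρ))).le
    refine .of (one hS (by simp [Sm, Par.Z]; omega) rfl (by simp [nxt, Par.step, Par.s0, ho'])) <| .of h3 ?_
    by_cases hh : T.Hl w (T.ts w ρ o (ρ ^ 3))
    · have e : T.run w (T.ts w ρ o (ρ ^ 3)) = T.run w t := by
        rw [← run_hl hh t, add_comm, run_hl ht]
      rw [e] at h4
      have h6 : oc (T.out (T.run w t).state) ≠ 0 ∧ oc (T.out (T.run w t).state) ≤ 2 := by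
        unfold Hl at ht; revert ht; rcases T.out (T.run w t).state with _ | _ | _ <;> simp [oc]
      refine ⟨[ρ, o, T.par.P ρ, 0, 0, 0, 0, 1, oc (T.out (T.run w t).state)],
        one hS (by simp [Sm, Par.Z, Par.P]; omega) rfl ?_, ?_, rfl⟩
      · simp only [nxt, Par.step, Par.s0, List.getD_cons_zero, List.getD_cons_succ, h4]; simp [h6]
      · exact (Sm.sz (Z := T.par.Z ρ + T.par.P ρ) (by simp [Sm, Par.Z]; omega)).trans
          (le_trans (by unfold Par.S Par.Lf; omega) hS)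
    · have h6 : oc (T.out (T.run w (T.ts w ρ o (ρ ^ 3))).state) = 0 := by
        unfold Hl at hh; revert hh; rcases T.out (T.run w (T.ts w ρ o (ρ ^ 3))).state with _ | _ | _ <;> simp [oc]
      refine .of (one hS (by simp [Sm, Par.Z, Par.P]; omega) rfl ?_) (ih (o + 1) (by omega)
        (h.imp_right fun ⟨o', a1, a2, a3⟩ => ⟨o', a1.lt_of_ne (by rintro rfl; exact hh a3), a2, a3⟩))
      simp only [nxt, Par.step, Par.s0, List.getD_cons_zero, List.getD_cons_succ, h4]; simp [h6]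

theorem grow {ρ : ℕ} (hS : T.par.S ρ ≤ S) (k i : ℕ) (hi : i + k = T.par.L ρ) :
    Steps' (nxt T.par.step Par.addr T.sy w) S [ρ, 0, T.par.p ρ ^ i, 0, 0, 0, 0, 2, i]
      [ρ, 0, T.par.P ρ, 0, 0, 0, 0, 3] := by
  have hρ : ρ ≤ ρ ^ 2 := Nat.le_self_pow (by omega) _
  have h1 := (T.par.p_spec ρ).2.1
  rw [add_mul] at h1
  induction k generalizing i with
  | zero =>
    obtain rfl : i = T.par.L ρ := hi
    exact one hS (by simp [Sm, Par.Z, Par.P]; omega) rfl (by simp [nxt, Par.step, Par.s0])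
  | succ k ih =>
    have : T.par.p ρ ^ i ≤ T.par.P ρ := Nat.pow_le_pow_right (by omega) (by omega)
    exact (one hS (by simp [Sm, Par.Z]; omega) rfl (by
      simp [nxt, Par.step, Par.s0, show i < T.par.L ρ by omega, pow_succ])).trans (ih (i + 1) (by omega))

theorem up {ρ : ℕ} (h1 : T.par.S ρ ≤ S) (h2 : T.par.S (ρ + 1) ≤ S) (l : List ℕ) (hl : l = [ρ] ∨ l = [] ∧ ρ = 0)
    (H : T.Good w S a [ρ + 1, 0, T.par.P (ρ + 1), 0, 0, 0, 0, 3]) : T.Good w S a l :=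
  have hρ : ρ ≤ ρ ^ 2 := Nat.le_self_pow (by omega) _
  .of (one h1 (by rcases hl with rfl | ⟨rfl, -⟩ <;> simp [Sm, Par.Z]; omega)
    (by rcases hl with rfl | ⟨rfl, -⟩ <;> rfl) (by
      rcases hl with rfl | ⟨rfl, rfl⟩ <;> simp [nxt, Par.step, Par.s0])) <| .of (grow h2 _ 0 (zero_add _)) H

theorem good {R t : ℕ} (hS : ∀ ρ ≤ R, T.par.S ρ ≤ S) (ht : T.Hl w t) (hR : t < R ^ 5) (k ρ : ℕ)
    (h : ρ + k = R) : T.Good w S (oc (T.out (T.run w t).state)) [ρ, 0, T.par.P ρ, 0, 0, 0, 0, 3] := by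
  induction k generalizing ρ with
  | zero =>
    obtain rfl : ρ = R := h
    obtain ⟨o, h1, h2⟩ := complete ht hR
    exact offs (hS _ le_rfl) ht _ 0 (zero_add _) (.inr ⟨o, Nat.zero_le _, h1, h2⟩)
  | succ k ih =>
    exact offs (hS _ (by omega)) ht _ 0 (zero_add _)
      (.inl (up (hS _ (by omega)) (hS _ (by omega)) _ (.inl rfl) (ih (ρ + 1) (by omega))))

theorem simulate [Finite α] (T : OneTape α) : ∃ (M : SpaceTM α) (c : ℕ), ∀ (w : List α) (t R : ℕ) (b : Bool),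
    T.out (T.run w t).state = some b → t < R ^ 5 → (∃ s, M.out (M.run w s).state = some b) ∧
      ∀ s j, (M.run w s).head j + 1 ≤ c * ((R + 1) ^ 2 * (R + 2).size ^ 2) + c := by
  obtain ⟨M, c, hM⟩ := space_of_machine T.par.step Par.addr Par.done T.par.ls_step Par.ls_addr Par.ls_done T.sy
  obtain ⟨κ, hκ⟩ := T.par.S_le
  refine ⟨M, c * (κ + 1), fun w t R b hb hR => ?_⟩
  have hS : ∀ ρ ≤ R, T.par.S ρ ≤ κ * ((R + 1) ^ 2 * (R + 2).size ^ 2) := fun ρ h => (hκ ρ).trans (by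
    have := Nat.size_le_size (show ρ + 2 ≤ R + 2 by omega)
    gcongr)
  have h1 : 1 ≤ R := Nat.pos_of_ne_zero (by rintro rfl; simp at hR)
  obtain ⟨l, h2, h3, h4⟩ := up (hS 0 (by omega)) (hS 1 h1) [] (.inr ⟨rfl, rfl⟩)
    (good (w := w) hS (by simp [Hl, hb]) hR (R - 1) 1 (by omega))
  obtain ⟨N, rfl, h5⟩ := h2.iter
  rw [hb] at h4
  obtain ⟨h6, h7⟩ := hM w _ N (fun t ht => ht.eq_or_lt.elim (fun e => e ▸ h3) fun h => (h5 t h).1)
    (fun t ht => (h5 t ht).2) (by rw [h4]; cases b <;> simp [oc])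
  refine ⟨h6.imp fun s hs => hs.trans (by rw [h4]; cases b <;> simp [oc]), fun s j => (h7 s j).trans ?_⟩
  nlinarith [Nat.zero_le (c * ((R + 1) ^ 2 * (R + 2).size ^ 2)), Nat.zero_le (c * κ)]

end OneTape

theorem real_bound (t : ℕ) : ∃ R : ℕ, t < R ^ 5 ∧ (((R + 1) ^ 2 * (R + 2).size ^ 2 : ℕ) : ℝ) ≤
    225 * ((t : ℝ) ^ (2 / 5 : ℝ) * Real.log (t + 2) ^ 2) + 16 := by
  rcases t.eq_zero_or_pos with rfl | ht
  · refine ⟨1, by simp, ?_⟩
    rw [show Nat.size (1 + 2) = 2 by decide]; norm_num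
  have h0 : (1 : ℝ) ≤ t := by exact_mod_cast ht
  set x := (t : ℝ) ^ (1 / 5 : ℝ) with hx
  have x1 : 1 ≤ x := Real.one_le_rpow h0 (by norm_num)
  have x2 : x ^ 5 = t := by rw [hx, ← Real.rpow_natCast, ← Real.rpow_mul (by positivity)]; norm_num
  have x3 : x ^ 2 = (t : ℝ) ^ (2 / 5 : ℝ) := by
    rw [hx, ← Real.rpow_natCast, ← Real.rpow_mul (by positivity)]; norm_num
  have x4 : x ≤ t := x2 ▸ le_self_pow₀ x1 (by omega)
  have h1 := Nat.floor_le (show 0 ≤ x by positivity)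
  have h2 := Nat.lt_floor_add_one x
  refine ⟨⌊x⌋₊ + 1, ?_, ?_⟩
  · have : (t : ℝ) < ((⌊x⌋₊ + 1 : ℕ) : ℝ) ^ 5 := by rw [← x2]; push_cast; gcongr
    exact_mod_cast this
  · set l := (⌊x⌋₊ + 1 + 2).size with hl
    have l1 : 1 ≤ l := Nat.size_pos.2 (by omega)
    have l2 : ((2 ^ (l - 1) : ℕ) : ℝ) ≤ ((⌊x⌋₊ + 1 + 2 : ℕ) : ℝ) := by
      exact_mod_cast Nat.lt_size.1 (show l - 1 < l by omega)
    have l3 : ((l - 1 : ℕ) : ℝ) * Real.log 2 ≤ 2 * Real.log (t + 2) := by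
      rw [← Real.log_pow, show 2 * Real.log (t + 2) = Real.log ((t + 2) ^ 2) by simp]
      push_cast at l2
      exact Real.log_le_log (by positivity) (by nlinarith)
    have l4 := Real.log_two_gt_d9
    have l5 : Real.log 2 ≤ Real.log (t + 2) := Real.log_le_log (by positivity) (by linarith)
    have l6 : (l : ℝ) ≤ 5 * Real.log (t + 2) := by
      rw [Nat.cast_sub l1] at l3; push_cast at l3
      have : (1 : ℝ) ≤ l := by exact_mod_cast l1
      nlinarith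
    have l7 : ((⌊x⌋₊ + 1 + 1 : ℕ) : ℝ) ≤ 3 * x := by push_cast; linarith
    rw [← x3, Nat.cast_mul, Nat.cast_pow, Nat.cast_pow]
    calc _ ≤ (3 * x) ^ 2 * (5 * Real.log (t + 2)) ^ 2 := by gcongr
      _ ≤ _ := by nlinarith

theorem main_log {α : Type} [Finite α] (t : ℕ → ℕ) :
    TIME1 α t ⊆ SPACE α fun n => (t n : ℝ) ^ (2 / 5 : ℝ) * Real.log (t n + 2) ^ 2 := by
  rintro L ⟨T, hT⟩
  obtain ⟨M, c, hM⟩ := T.simulate
  refine ⟨M, 225 * c, fun w => ?_⟩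
  obtain ⟨b, h1, h2⟩ := hT w
  obtain ⟨R, h3, h4⟩ := real_bound (t w.length)
  obtain ⟨⟨s, h5⟩, h6⟩ := hM w _ R b h1 h3
  refine ⟨⟨s, b, h5, h2⟩, fun s j => ?_⟩
  have h7 : (((M.run w s).head j + 1 : ℕ) : ℝ) ≤ c * (((R + 1) ^ 2 * (R + 2).size ^ 2 : ℕ) : ℝ) + c := by
    exact_mod_cast h6 s j
  have h8 := mul_le_mul_of_nonneg_left h4 (Nat.cast_nonneg (α := ℝ) c)
  have : (0 : ℝ) ≤ c := Nat.cast_nonneg _
  nlinarith

theorem main_pow {α : Type} [Finite α] {e : ℝ} (he : 2 / 5 < e) (t : ℕ → ℕ) :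
    TIME1 α t ⊆ SPACE α fun n => (t n : ℝ) ^ e := by
  intro L hL
  obtain ⟨M, c, hM⟩ := main_log t hL
  set ε := (e - 2 / 5) / 2 with hε
  have ε0 : 0 < ε := by rw [hε]; linarith
  refine ⟨M, |c| * ((3 ^ ε / ε) ^ 2 + 1), fun w => ⟨(hM w).1, fun s j => ((hM w).2 s j).trans ?_⟩⟩
  have key : (t w.length : ℝ) ^ (2 / 5 : ℝ) * Real.log (t w.length + 2) ^ 2 ≤
      (3 ^ ε / ε) ^ 2 * (t w.length : ℝ) ^ e := by
    rcases (t w.length).eq_zero_or_pos with h | h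
    · rw [h, Nat.cast_zero, Real.zero_rpow (by norm_num), zero_mul]; positivity
    have h0 : (1 : ℝ) ≤ t w.length := by exact_mod_cast h
    have h1 : Real.log (t w.length + 2) ≤ 3 ^ ε / ε * (t w.length : ℝ) ^ ε := by
      refine (Real.log_le_rpow_div (by positivity) ε0).trans ?_
      rw [div_mul_eq_mul_div, ← Real.mul_rpow (by positivity) (by positivity)]
      gcongr; linarith
    have h2 : (t w.length : ℝ) ^ e = (t w.length : ℝ) ^ (2 / 5 : ℝ) * ((t w.length : ℝ) ^ ε) ^ 2 := by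
      rw [← Real.rpow_natCast, ← Real.rpow_mul (by positivity), ← Real.rpow_add (by positivity)]
      congr 1; rw [hε]; push_cast; ring
    have h3 : 0 ≤ Real.log (t w.length + 2) := Real.log_nonneg (by linarith)
    rw [h2]
    calc _ ≤ (t w.length : ℝ) ^ (2 / 5 : ℝ) * (3 ^ ε / ε * (t w.length : ℝ) ^ ε) ^ 2 := by gcongr
      _ = _ := by ring
  have h1 : 0 ≤ (t w.length : ℝ) ^ (2 / 5 : ℝ) * Real.log (t w.length + 2) ^ 2 := by positivity
  have h2 : 0 ≤ (t w.length : ℝ) ^ e := by positivity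
  have h3 := le_abs_self c
  have h4 := abs_nonneg c
  have h5 : 0 ≤ (3 ^ ε / ε : ℝ) ^ 2 := by positivity
  have h6 := mul_le_mul h3 key h1 h4
  nlinarith [mul_nonneg h4 h2, mul_nonneg h4 h5]

end Vale.Agent.P312
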