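import Vale.Agent.P312.TM

namespace Vale.Agent.P312
open Function

/-- polynomially bounded -/
@[fun_prop] def PB (f : ℕ → ℕ) : Prop := ∃ c, ∀ N, f N ≤ (N + 2) ^ c

@[fun_prop] theorem PB.id' : PB fun N => N := ⟨1, fun N => by simp⟩
@[fun_prop] theorem PB.const (a : ℕ) : PB fun _ => a :=
  ⟨a, fun N => (Nat.lt_two_pow_self).le.trans (Nat.pow_le_pow_left (by omega) a)⟩
@[fun_prop] theorem PB.mul {f g : ℕ → ℕ} (hf : PB f) (hg : PB g) : PB fun N => f N * g N := by
  obtain ⟨c, hc⟩ := hf; obtain ⟨d, hd⟩ := hg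
  exact ⟨c + d, fun N => by rw [pow_add]; exact Nat.mul_le_mul (hc N) (hd N)⟩
@[fun_prop] theorem PB.add {f g : ℕ → ℕ} (hf : PB f) (hg : PB g) : PB fun N => f N + g N := by
  obtain ⟨c, hc⟩ := hf; obtain ⟨d, hd⟩ := hg
  refine ⟨c + d + 1, fun N => ?_⟩
  have h1 := (hc N).trans (Nat.pow_le_pow_right (by omega) (Nat.le_add_right c d))
  have h2 := (hd N).trans (Nat.pow_le_pow_right (by omega) (Nat.le_add_left d c))
  rw [pow_succ]; nlinarith
@[fun_prop] theorem PB.comp {f g : ℕ → ℕ} (hf : PB f) (hg : PB g) : PB fun N => f (g N) := by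
  obtain ⟨c, hc⟩ := hf
  obtain ⟨d, hd⟩ := hg.add (PB.const 2)
  exact ⟨d * c, fun N => by rw [pow_mul]; exact (hc _).trans (Nat.pow_le_pow_left (hd N) c)⟩

section
variable {A : Type} {w : List A} {B h : ℕ}

theorem Run.cast {p σ h σ' h' σ''} (H : Run w B p σ h σ' h') (e : σ' = σ'') : Run w B p σ h σ'' h' := e ▸ H

theorem run_clear (a : ℕ) (σ : ℕ → ℕ) (hB : σ a ≤ B) :
    Run w B (.whl a (.dec a)) σ h (update σ a 0) h := by
  induction e : σ a generalizing σ with
  | zero => exact (Run.stop e).cast (by rw [← e, update_eq_self])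
  | succ n ih =>
    exact (Run.go (by omega) (.dec _ _ _ hB) (ih _ (by simp; omega) (by simp; omega))).cast (by simp)

theorem run_move {a d : ℕ} (had : a ≠ d) (σ : ℕ → ℕ) (hB : σ a + σ d ≤ B) :
    Run w B (.whl a (.seq (.dec a) (.inc d))) σ h (update (update σ a 0) d (σ d + σ a)) h := by
  induction e : σ a generalizing σ with
  | zero => exact (Run.stop e).cast (by rw [← e, update_eq_self, e]; simp)
  | succ n ih =>
    refine (Run.go (by omega) (.seq (.dec _ _ _ (by omega)) (.inc _ _ _ (by simp [had.symm]; omega)))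
      (ih _ (by simp [had, had.symm]; omega) (by simp [had, had.symm]; omega))).cast ?_
    funext r; simp only [update_apply]; split_ifs <;> simp_all; omega

theorem run_move2 {a d t : ℕ} (had : a ≠ d) (hat : a ≠ t) (hdt : d ≠ t) (σ : ℕ → ℕ)
    (hB : 2 * σ a + σ d + σ t ≤ B) :
    Run w B (.whl a (.seq (.dec a) (.seq (.inc d) (.inc t)))) σ h
      (update (update (update σ a 0) d (σ d + σ a)) t (σ t + σ a)) h := by
  induction e : σ a generalizing σ with
  | zero => exact (Run.stop e).cast (by rw [← e, update_eq_self, e]; simp)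
  | succ n ih =>
    refine (Run.go (by omega) (.seq (.dec _ _ _ (by omega)) (.seq (.inc _ _ _ (by simp [had.symm]; omega))
      (.inc _ _ _ (by simp [hat.symm, hdt.symm]; omega))))
      (ih _ (by simp [had, had.symm, hat, hat.symm, hdt, hdt.symm]; omega)
        (by simp [had, hat]; omega))).cast ?_
    funext r; simp only [update_apply]; split_ifs <;> simp_all <;> omega
end

/-- functions computed by counter programs with polynomially bounded counters -/
def RF {ι : Type} (F : (ι → ℕ) → ℕ) : Prop :=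
  (∃ g, PB g ∧ ∀ v N, (∀ i, v i ≤ N) → F v ≤ g N) ∧
  ∀ (A : Type) (src : ι → ℕ) (dst fr : ℕ), (∀ i, src i < fr) → dst < fr → (∀ i, src i ≠ dst) →
    ∃ (p : Prog A) (f : ℕ → ℕ), PB f ∧ ∀ w h (σ : ℕ → ℕ) N, (∀ r, σ r ≤ N) → (∀ r, fr ≤ r → σ r = 0) →
      Run w (f N) p σ h (update σ dst (σ dst + F fun i => σ (src i))) h

namespace RF
variable {ι κ : Type}

theorem congr {F G : (ι → ℕ) → ℕ} (h : RF F) (e : ∀ v, F v = G v) : RF G := by
  rwa [show G = F from funext fun v => (e v).symm]

theorem comap {F : (ι → ℕ) → ℕ} (h : RF F) (g : ι → κ) : RF fun v : κ → ℕ => F fun i => v (g i) := by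
  obtain ⟨⟨b, hb, h1⟩, h2⟩ := h
  exact ⟨⟨b, hb, fun v N hv => h1 _ _ fun i => hv _⟩, fun A src dst fr a1 a2 a3 =>
    h2 A (fun i => src (g i)) dst fr (fun _ => a1 _) a2 fun _ => a3 _⟩

theorem zero : RF fun _ : ι → ℕ => 0 :=
  ⟨⟨_, PB.const 0, fun _ _ _ => le_rfl⟩, fun _ _ _ _ _ _ _ =>
    ⟨.skip, _, PB.const 0, fun _ _ _ _ _ _ => (Run.skip _ _).cast (by simp)⟩⟩

theorem one : RF fun _ : ι → ℕ => 1 :=
  ⟨⟨_, PB.const 1, fun _ _ _ => le_rfl⟩, fun _ _ dst _ _ _ _ =>
    ⟨.inc dst, _, PB.id', fun _ _ _ _ h _ => Run.inc _ _ _ (h _)⟩⟩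

theorem proj (i : ι) : RF fun v : ι → ℕ => v i := by
  refine ⟨⟨_, PB.id', fun _ _ h => h i⟩, fun A src dst fr a1 a2 a3 =>
    ⟨.seq (.whl (src i) (.seq (.dec (src i)) (.seq (.inc dst) (.inc fr))))
      (.whl fr (.seq (.dec fr) (.inc (src i)))), fun N => 4 * N, by fun_prop, fun w h σ N b1 b2 => ?_⟩⟩
  beta_reduce
  have := a1 i; have := a3 i; have := b1 (src i); have := b1 dst; have := b2 fr le_rfl
  refine (Run.seq (run_move2 (a3 i) (by omega) (by omega) σ (by omega))
    (run_move (by omega) _ (by simp only [update_apply]; split_ifs <;> omega))).cast ?_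
  funext r; simp only [update_apply]; split_ifs <;> first | omega | (subst_vars; omega)

theorem add {F G : (ι → ℕ) → ℕ} (hF : RF F) (hG : RF G) : RF fun v => F v + G v := by
  obtain ⟨⟨b, hb, h1⟩, h2⟩ := hF
  obtain ⟨⟨b', hb', h1'⟩, h2'⟩ := hG
  refine ⟨⟨fun N => b N + b' N, by fun_prop, fun v N hv => Nat.add_le_add (h1 v N hv) (h1' v N hv)⟩,
    fun A src dst fr a1 a2 a3 => ?_⟩
  obtain ⟨p, f, hf, H⟩ := h2 A src dst fr a1 a2 a3
  obtain ⟨q, g, hg, H'⟩ := h2' A src dst fr a1 a2 a3
  refine ⟨.seq p q, fun N => f N + g (N + b N), by fun_prop, fun w h σ N b1 b2 => ?_⟩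
  beta_reduce
  have := h1 (fun i => σ (src i)) N fun i => b1 _
  refine (Run.seq ((H w h σ N b1 b2).mono (by omega)) ((H' w h _ (N + b N) (fun r => ?_)
    fun r hr => ?_).mono (by omega))).cast ?_
  · have := b1 r; have := b1 dst; simp only [update_apply]; split_ifs <;> omega
  · rw [update_of_ne (by omega), b2 r hr]
  · simp [a3, add_assoc]

theorem const (c : ℕ) : RF fun _ : ι → ℕ => c := by
  induction c with
  | zero => exact zero
  | succ c ih => exact ih.add one

theorem pred {F : (ι → ℕ) → ℕ} (hF : RF F) : RF fun v => F v - 1 := by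
  obtain ⟨⟨b, hb, h1⟩, h2⟩ := hF
  refine ⟨⟨b, hb, fun v N hv => (Nat.sub_le _ _).trans (h1 v N hv)⟩, fun A src dst fr a1 a2 a3 => ?_⟩
  obtain ⟨p, f, hf, H⟩ := h2 A src fr (fr + 1) (fun i => by have := a1 i; omega) (by omega)
    fun i => by have := a1 i; omega
  refine ⟨.seq p (.seq (.dec fr) (.whl fr (.seq (.dec fr) (.inc dst)))), fun N => f N + (N + b N),
    by fun_prop, fun w h σ N b1 b2 => ?_⟩
  beta_reduce
  have := h1 (fun i => σ (src i)) N fun i => b1 _
  have := b2 fr le_rfl; have := b1 dst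
  refine (Run.seq ((H w h σ N b1 fun r hr => b2 r (by omega)).mono (by omega))
    (.seq (.dec _ _ _ (by simp; omega)) (run_move (by omega) _
      (by simp only [update_apply]; split_ifs <;> omega)))).cast ?_
  funext r; simp only [update_apply]; split_ifs <;> first | omega | (subst_vars; omega)

theorem let1 {F : (Option ι → ℕ) → ℕ} {G : (ι → ℕ) → ℕ} (hF : RF F) (hG : RF G) :
    RF fun v => F fun o => o.elim (G v) v := by
  obtain ⟨⟨b, hb, h1⟩, h2⟩ := hF
  obtain ⟨⟨b', hb', h1'⟩, h2'⟩ := hG
  refine ⟨⟨fun N => b (N + b' N), by fun_prop, fun v N hv => h1 _ _ fun o => ?_⟩,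
    fun A src dst fr a1 a2 a3 => ?_⟩
  · have := h1' v N hv
    cases o with
    | none => simp; omega
    | some i => have := hv i; simp; omega
  obtain ⟨q, g, hg, H'⟩ := h2' A src fr (fr + 1) (fun i => by have := a1 i; omega) (by omega)
    fun i => by have := a1 i; omega
  obtain ⟨p, f, hf, H⟩ := h2 A (fun o => o.elim fr src) dst (fr + 1)
    (fun o => by cases o with
      | none => simp
      | some i => have := a1 i; simp; omega) (by omega) fun o => by
      cases o with
      | none => simp; omega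
      | some i => exact a3 i
  refine ⟨.seq q (.seq p (.whl fr (.dec fr))), fun N => g N + f (N + b' N) + b' N, by fun_prop,
    fun w h σ N b1 b2 => ?_⟩
  beta_reduce
  have := h1' (fun i => σ (src i)) N fun i => b1 _
  have := b2 fr le_rfl
  refine (Run.seq ((H' w h σ N b1 fun r hr => b2 r (by omega)).mono (by omega))
    (.seq ((H w h _ (N + b' N) (fun r => ?_) fun r hr => ?_).mono (by omega))
      (run_clear _ _ (by simp only [update_apply]; split_ifs <;> omega)))).cast ?_
  · have := b1 r; simp only [update_apply]; split_ifs <;> omega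
  · rw [update_of_ne (by omega), b2 r (by omega)]
  · have e : (fun o : Option ι => update σ fr (σ fr + G fun i => σ (src i)) (o.elim fr src)) =
        fun o => o.elim (G fun i => σ (src i)) fun i => σ (src i) := by
      funext o
      cases o with
      | none => simp [this]
      | some i => exact update_of_ne (by have := a1 i; simp; omega) _ _
    rw [e]
    funext r; simp only [update_apply]; split_ifs <;> first | omega | (subst_vars; omega)

theorem comp {J : Type} [Finite J] : ∀ {ι : Type} {F : (ι ⊕ J → ℕ) → ℕ} {G : J → (ι → ℕ) → ℕ},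
    RF F → (∀ j, RF (G j)) → RF fun v => F (Sum.elim v fun j => G j v) := by
  induction J using Finite.induction_empty_option with
  | of_equiv e ih =>
    intro ι F G hF hG
    refine (ih (hF.comap (Sum.map id e.symm)) fun j => hG (e j)).congr fun v => ?_
    congr 1; funext i; cases i <;> simp
  | h_empty =>
    intro ι F G hF _
    refine (hF.comap (Sum.elim id PEmpty.elim)).congr fun v => ?_
    congr 1; funext i; rcases i with i | i
    · rfl
    · exact i.elim
  | h_option ih =>
    intro ι F G hF hG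
    refine (let1 (ih (hF.comap (Sum.elim (fun i => .inl (some i))
      fun o => o.elim (.inl none) .inr)) fun j => (hG (some j)).comap some) (hG none)).congr fun v => ?_
    congr 1; funext i; rcases i with i | _ | i <;> rfl

theorem prec {n F : (ι → ℕ) → ℕ} {G : (Option (Option ι) → ℕ) → ℕ} (hn : RF n) (hF : RF F) (hG : RF G)
    (R : (ι → ℕ) → ℕ → ℕ) (h0 : ∀ v, R v 0 = F v)
    (hs : ∀ v i, R v (i + 1) = G fun o => o.elim (R v i) fun o => o.elim i v)
    (hb : ∃ g, PB g ∧ ∀ v N, (∀ i, v i ≤ N) → ∀ i ≤ n v, R v i ≤ g N) : RF fun v => R v (n v) := by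
  obtain ⟨⟨bn, hbn, n1⟩, n2⟩ := hn
  obtain ⟨-, F2⟩ := hF
  obtain ⟨-, G2⟩ := hG
  obtain ⟨b, hb, h1⟩ := hb
  refine ⟨⟨b, hb, fun v N hv => h1 v N hv _ le_rfl⟩, fun A src dst fr a1 a2 a3 => ?_⟩
  obtain ⟨pn, fn, hfn, Hn⟩ := n2 A src fr (fr + 4) (fun i => by have := a1 i; omega) (by omega)
    fun i => by have := a1 i; omega
  obtain ⟨pF, fF, hfF, HF⟩ := F2 A src (fr + 2) (fr + 4) (fun i => by have := a1 i; omega) (by omega)
    fun i => by have := a1 i; omega
  obtain ⟨pG, fG, hfG, HG⟩ := G2 A (fun o => o.elim (fr + 2) fun o => o.elim (fr + 1) src) (fr + 3) (fr + 4)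
    (fun o => by
      rcases o with _ | _ | i
      · simp
      · simp
      · have := a1 i; simp; omega) (by omega) fun o => by
      rcases o with _ | _ | i
      · simp
      · simp
      · have := a1 i; simp; omega
  let body : Prog A := .seq pG (.seq (.whl (fr + 2) (.dec (fr + 2)))
    (.seq (.whl (fr + 3) (.seq (.dec (fr + 3)) (.inc (fr + 2)))) (.seq (.inc (fr + 1)) (.dec fr))))
  refine ⟨.seq pn (.seq pF (.seq (.whl fr body) (.seq (.whl (fr + 2) (.seq (.dec (fr + 2)) (.inc dst)))
    (.whl (fr + 1) (.dec (fr + 1)))))), fun N => fn N + fF (N + bn N) + fG (N + bn N + b N) +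
      (N + bn N + b N), by fun_prop, fun w h σ N b1 b2 => ?_⟩
  beta_reduce
  set v : ι → ℕ := fun i => σ (src i) with hv
  have hvN : ∀ i, v i ≤ N := fun i => b1 _
  have n3 := n1 v N hvN
  have h2 := h1 v N hvN
  let τ : ℕ → ℕ → ℕ → ℕ := fun a i r =>
    if r = fr then a else if r = fr + 1 then i else if r = fr + 2 then R v i else σ r
  have z0 := b2 fr le_rfl; have z1 := b2 (fr + 1) (by omega); have z2 := b2 (fr + 2) (by omega)
  have z3 := b2 (fr + 3) (by omega)
  have loop : ∀ a i, a + i = n v → Run w (fG (N + bn N + b N) + (N + bn N + b N)) (.whl fr body)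
      (τ a i) h (τ 0 (n v)) h := by
    intro a
    induction a with
    | zero => intro i e; exact (Run.stop (by simp [τ])).cast (by rw [← e, zero_add])
    | succ a ih =>
      intro i e
      have h3 := h2 i (by omega)
      have h4 := h2 (i + 1) (by omega)
      have e1 : (G fun o : Option (Option ι) => τ (a + 1) i (o.elim (fr + 2) fun o => o.elim (fr + 1) src)) =
          R v (i + 1) := by
        rw [hs]; congr 1; funext o
        rcases o with _ | _ | j
        · simp [τ]
        · simp [τ]
        · have := a1 j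
          simp only [τ, Option.elim]; rw [if_neg (by omega), if_neg (by omega), if_neg (by omega)]
      have h5 := HG w h (τ (a + 1) i) (N + bn N + b N) (fun r => by
        have := b1 r; simp only [τ]; split_ifs <;> omega) fun r hr => by
        simp only [τ]; rw [if_neg (by omega), if_neg (by omega), if_neg (by omega), b2 r (by omega)]
      rw [e1] at h5
      refine Run.go (by simp [τ]) ((Run.seq (h5.mono (by omega)) (.seq (run_clear _ _ ?_)
        (.seq (run_move (by omega) _ ?_) (.seq (.inc _ _ _ ?_) (.dec _ _ _ ?_))))).cast ?_) (ih (i + 1) (by omega))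
      · simp [τ]; omega
      · simp [τ]; omega
      · simp [τ]; omega
      · simp [τ]; omega
      · funext r; simp only [update_apply, τ]; split_ifs <;> first | omega | (subst_vars; omega)
  have h6 := HF w h (update σ fr (σ fr + n v)) (N + bn N) (fun r => by
    have := b1 r; simp only [update_apply]; split_ifs <;> omega) fun r hr => by
    rw [update_of_ne (by omega), b2 r (by omega)]
  have e2 : (fun i => update σ fr (σ fr + n v) (src i)) = v :=
    funext fun i => update_of_ne (by have := a1 i; omega) _ _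
  rw [e2] at h6
  have h7 := h2 _ le_rfl
  have := b1 dst
  refine (Run.seq ((Hn w h σ N b1 fun r hr => b2 r (by omega)).mono (by omega))
    (.seq ((h6.mono (by omega)).cast (σ'' := τ (n v) 0) ?_) (.seq ((loop _ 0 rfl).mono (by omega))
      (.seq (run_move (by omega) _ ?_) (run_clear _ _ ?_))))).cast ?_
  · funext r; simp only [update_apply, τ, h0]; split_ifs <;> first | omega | (subst_vars; omega)
  · simp only [τ]; split_ifs <;> omega
  · simp only [update_apply, τ]; split_ifs <;> omega
  · funext r; simp only [update_apply, τ]; split_ifs <;> first | omega | (subst_vars; omega)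

end RF

end Vale.Agent.P312
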