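import Vale.Agent.P312.LS

namespace Vale.Agent.P312
open Function

variable {A : Type} {w : List A} {B : ℕ}

theorem run_right (σ : ℕ → ℕ) (h : ℕ) (hh : h ≤ w.length + 1) (hB : σ 2 + σ 3 ≤ B) :
    Run w B (.whl 2 (.seq (.dec 2) (.seq (.inc 3) (.mv .right)))) σ h
      (update (update σ 2 0) 3 (σ 3 + σ 2)) (min (h + σ 2) (w.length + 1)) := by
  induction e : σ 2 generalizing σ h with
  | zero =>
    rw [show min (h + 0) (w.length + 1) = h by omega]
    exact (Run.stop e).cast (by rw [← e, update_eq_self, e]; simp)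
  | succ n ih =>
    have := ih (update (update σ 2 (σ 2 - 1)) 3 (σ 3 + 1)) (min (h + 1) (w.length + 1)) (by omega)
      (by simp; omega) (by simp; omega)
    rw [show min (min (h + 1) (w.length + 1) + n) (w.length + 1) = min (h + (n + 1)) (w.length + 1) by omega]
      at this
    refine (Run.go (by omega) (.seq (.dec _ _ _ (by omega)) (.seq (.inc _ _ _ (by simp; omega))
      (.mv _ _ _))) this).cast ?_
    funext r; simp only [update_apply]; split_ifs <;> simp_all; omega

theorem run_left (σ : ℕ → ℕ) (h : ℕ) (hh : h ≤ w.length + 1) (hB : σ 3 ≤ B) :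
    Run w B (.whl 3 (.seq (.dec 3) (.mv .left))) σ h (update σ 3 0) (h - σ 3) := by
  induction e : σ 3 generalizing σ h with
  | zero => exact (Run.stop e).cast (by rw [← e, update_eq_self])
  | succ n ih =>
    have := ih (update σ 3 (σ 3 - 1)) (min (h - 1) (w.length + 1)) (by omega) (by simp; omega)
      (by simp; omega)
    rw [show min (h - 1) (w.length + 1) - n = h - (n + 1) by omega] at this
    exact (Run.go (by omega) (.seq (.dec _ _ _ (by omega)) (.mv _ _ _)) this).cast (by simp)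

def addc (r : ℕ) : ℕ → Prog A
  | 0 => .skip
  | n + 1 => .seq (.inc r) (addc r n)

theorem run_addc (r n : ℕ) (σ : ℕ → ℕ) (h : ℕ) (hB : σ r + n ≤ B) :
    Run w B (addc r n) σ h (update σ r (σ r + n)) h := by
  induction n generalizing σ with
  | zero => exact (Run.skip _ _).cast (by simp)
  | succ n ih =>
    exact (Run.seq (.inc _ _ _ (by omega)) (ih _ (by simp; omega))).cast (by simp; congr 1; omega)

def rg (a b c d e f : ℕ) : ℕ → ℕ
  | 0 => a
  | 1 => b
  | 2 => c
  | 3 => d
  | 4 => e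
  | 5 => f
  | _ => 0

theorem rg_le {a b c d e f N : ℕ} (h : a ≤ N ∧ b ≤ N ∧ c ≤ N ∧ d ≤ N ∧ e ≤ N ∧ f ≤ N) (r : ℕ) :
    rg a b c d e f r ≤ N := by
  rcases r with _ | _ | _ | _ | _ | _ | r <;> simp [rg, h]

theorem rg_hi {a b c d e f : ℕ} (r : ℕ) (h : 6 ≤ r) : rg a b c d e f r = 0 := by
  rcases r with _ | _ | _ | _ | _ | _ | r <;> first | omega | rfl

/-- one step of a machine whose configurations are lists of numbers -/
def nxt (step : List ℕ × ℕ → List ℕ) (addr : List ℕ → ℕ) (sym : Option A → ℕ) (w : List A)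
    (l : List ℕ) : List ℕ := step (l, sym (readIn w (min (addr l) (w.length + 1))))

theorem space_of_machine [Finite A] (step : List ℕ × ℕ → List ℕ) (addr done : List ℕ → ℕ)
    (hs : LS step) (ha : LS addr) (hd : LS done) (sym : Option A → ℕ) :
    ∃ (M : SpaceTM A) (c : ℕ), ∀ (w : List A) (S T : ℕ),
      (∀ t ≤ T, sz ((nxt step addr sym w)^[t] []) ≤ S) →
      (∀ t < T, done ((nxt step addr sym w)^[t] []) = 0) → done ((nxt step addr sym w)^[T] []) ≠ 0 →
      (∃ t, M.out (M.run w t).state = some (decide (done ((nxt step addr sym w)^[T] []) = 1))) ∧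
        ∀ t j, (M.run w t).head j + 1 ≤ c * S + c := by
  obtain ⟨K, hK⟩ := (Set.finite_range sym).bddAbove
  obtain ⟨F1, ⟨-, r1⟩, e1⟩ := (show LS fun l => if done l = 0 then 1 else 0 by fun_prop) ()
  obtain ⟨F2, ⟨⟨g2, pg2, b2⟩, r2⟩, e2⟩ := ha ()
  obtain ⟨F3, ⟨-, r3⟩, e3⟩ := hs ()
  obtain ⟨F4, ⟨-, r4⟩, e4⟩ := (show LS fun l => if done l = 1 then 1 else 0 by fun_prop) ()
  obtain ⟨p1, f1, pf1, r1⟩ := r1 A (fun _ => 0) 1 6 (by simp) (by simp) (by simp)
  obtain ⟨p2, f2, pf2, r2⟩ := r2 A (fun _ => 0) 2 6 (by simp) (by simp) (by simp)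
  obtain ⟨p3, f3, pf3, r3⟩ := r3 A (Sum.elim (fun _ => 0) fun _ => 4) 5 6 (by rintro (_ | _) <;> simp)
    (by simp) (by rintro (_ | _) <;> simp)
  obtain ⟨p4, f4, pf4, r4⟩ := r4 A (fun _ => 0) 2 6 (by simp) (by simp) (by simp)
  let body : Prog A := .seq (.whl 1 (.dec 1)) <| .seq p2 <|
    .seq (.whl 2 (.seq (.dec 2) (.seq (.inc 3) (.mv .right)))) <| .seq (.cas fun s => addc 4 (sym s)) <|
    .seq (.whl 3 (.seq (.dec 3) (.mv .left))) <| .seq p3 <| .seq (.whl 0 (.dec 0)) <|
    .seq (.whl 4 (.dec 4)) <| .seq (.whl 5 (.seq (.dec 5) (.inc 0))) p1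
  obtain ⟨M, hM⟩ := space_of_prog (.seq p1 (.seq (.whl 1 body) p4)) 2
  obtain ⟨c, hc⟩ : PB fun N => f1 (N + K) + f2 (N + K) + f3 (N + K) + f4 (N + K) + g2 N + N + K + 1 := by
    fun_prop
  refine ⟨M, 2 * c + 3, fun w S T h1 h2 h3 => ?_⟩
  set N := 2 ^ S with hN
  have N1 : 1 ≤ N := Nat.one_le_two_pow
  set B := 2 ^ (c * (S + 2)) - 1 with hB
  have hb : f1 (N + K) + f2 (N + K) + f3 (N + K) + f4 (N + K) + g2 N + N + K ≤ B := by
    have := hc N
    beta_reduce at this
    have h5 : (N + 2) ^ c ≤ 2 ^ (c * (S + 2)) := by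
      rw [mul_comm, pow_mul]; exact Nat.pow_le_pow_left (by rw [pow_add]; omega) _
    omega
  have q1 : ∀ l, encL l ≤ N → Run w B p1 (rg (encL l) 0 0 0 0 0) 0
      (rg (encL l) (if done l = 0 then 1 else 0) 0 0 0 0) 0 := fun l hl =>
    ((r1 w 0 _ (N + K) (rg_le (by omega)) rg_hi).mono (by omega)).cast (by
      have := e1 l
      funext r; rcases r with _ | _ | _ | _ | _ | _ | r <;> first | rfl | exact (zero_add _).trans this)
  have q2 : ∀ l, encL l ≤ N → encL (nxt step addr sym w l) ≤ N →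
      Run w B body (rg (encL l) 1 0 0 0 0) 0 (rg (encL (nxt step addr sym w l))
        (if done (nxt step addr sym w l) = 0 then 1 else 0) 0 0 0 0) 0 := fun l hl hl' => by
    have a1 : addr l ≤ g2 N := by
      have := b2 (Cd.enc l) N fun _ => hl
      rwa [e2] at this
    set s := sym (readIn w (min (addr l) (w.length + 1))) with hs
    have a2 : s ≤ K := hK ⟨_, rfl⟩
    refine .seq (σ' := rg (encL l) 0 0 0 0 0) ((run_clear 1 _ (by simp [rg]; omega)).cast ?_) <|
      .seq (σ' := rg (encL l) 0 (addr l) 0 0 0)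
        (((r2 w 0 _ (N + K) (rg_le (by omega)) rg_hi).mono (by omega)).cast ?_) <|
      .seq (σ' := rg (encL l) 0 0 (addr l) 0 0) ((run_right _ 0 (by omega) (by simp [rg]; omega)).cast ?_) <|
      .seq (σ' := rg (encL l) 0 0 (addr l) s 0) (.cas ((run_addc _ _ _ _ (by
        simp only [rg, zero_add]; omega)).cast ?_)) <|
      .seq (σ' := rg (encL l) 0 0 0 s 0) (h' := 0) ?_ <|
      .seq (σ' := rg (encL l) 0 0 0 s (encL (nxt step addr sym w l)))
        (((r3 w 0 _ (N + K) (rg_le (by omega)) rg_hi).mono (by omega)).cast ?_) <|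
      .seq (σ' := rg 0 0 0 0 s (encL (nxt step addr sym w l))) ((run_clear 0 _ (by simp [rg]; omega)).cast ?_) <|
      .seq (σ' := rg 0 0 0 0 0 (encL (nxt step addr sym w l))) ((run_clear 4 _ (by simp [rg]; omega)).cast ?_) <|
      .seq ((run_move (by omega) _ (by simp [rg]; omega)).cast ?_) (q1 _ hl')
    · funext r; rcases r with _ | _ | _ | _ | _ | _ | r <;> rfl
    · have := e2 l
      funext r; rcases r with _ | _ | _ | _ | _ | _ | r <;> first | rfl | exact (zero_add _).trans this
    · funext r; rcases r with _ | _ | _ | _ | _ | _ | r <;> first | rfl | exact zero_add _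
    · funext r; rcases r with _ | _ | _ | _ | _ | _ | r <;> first | rfl | simp [rg, hs]
    · have := run_left (w := w) (B := B) (rg (encL l) 0 0 (addr l) s 0)
        (min (0 + rg (encL l) 0 (addr l) 0 0 0 2) (w.length + 1)) (by omega) (by simp [rg]; omega)
      rw [show min (0 + rg (encL l) 0 (addr l) 0 0 0 2) (w.length + 1) - rg (encL l) 0 0 (addr l) s 0 3 = 0 by
        simp [rg]] at this
      refine this.cast ?_
      funext r; rcases r with _ | _ | _ | _ | _ | _ | r <;> rfl
    · have := e3 (l, s)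
      have h7 : (fun i : Unit ⊕ Unit => rg (encL l) 0 0 0 s 0 (Sum.elim (fun _ => 0) (fun _ => 4) i)) =
          Cd.enc (l, s) := by funext i; rcases i with i | i <;> rfl
      funext r; rcases r with _ | _ | _ | _ | _ | _ | r <;>
        first | rfl | exact (zero_add _).trans ((congrArg F3 h7).trans this)
    · funext r; rcases r with _ | _ | _ | _ | _ | _ | r <;> rfl
    · funext r; rcases r with _ | _ | _ | _ | _ | _ | r <;> rfl
    · funext r; rcases r with _ | _ | _ | _ | _ | _ | r <;> first | rfl | exact zero_add _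
  have h4 : ∀ t ≤ T, encL ((nxt step addr sym w)^[t] []) ≤ N := fun t ht =>
    (encL_lt _).le.trans (Nat.pow_le_pow_right (by omega) (h1 t ht))
  have q3 : ∀ k t, t + k = T → Run w B (.whl 1 body) (rg (encL ((nxt step addr sym w)^[t] []))
      (if done ((nxt step addr sym w)^[t] []) = 0 then 1 else 0) 0 0 0 0) 0
      (rg (encL ((nxt step addr sym w)^[T] [])) 0 0 0 0 0) 0 := by
    intro k
    induction k with
    | zero => intro t ht; obtain rfl : t = T := by omega
              rw [if_neg h3]; exact .stop rfl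
    | succ k ih =>
      intro t ht
      have := ih (t + 1) (by omega)
      rw [iterate_succ_apply'] at this
      rw [if_pos (h2 t (by omega))]
      exact .go (by simp [rg]) (q2 _ (h4 t (by omega)) (by
        have := h4 (t + 1) (by omega); rwa [iterate_succ_apply'] at this)) this
  have q4 := (r4 w 0 (rg (encL ((nxt step addr sym w)^[T] [])) 0 0 0 0 0) (N + K)
    (rg_le (by have := h4 T le_rfl; omega)) rg_hi).mono (show _ ≤ B by omega)
  have q5 := Run.seq (q1 [] (by simp [encL])) (.seq (q3 T 0 (by simp)) q4)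
  rw [show rg (encL []) 0 0 0 0 0 = fun _ => 0 by
    funext r; rcases r with _ | _ | _ | _ | _ | _ | r <;> rfl] at q5
  obtain ⟨⟨t, ht⟩, h6⟩ := hM w (c * (S + 2)) _ _ q5
  refine ⟨⟨t, ht.trans ?_⟩, fun t j => ?_⟩
  · have := e4 ((nxt step addr sym w)^[T] [])
    simp only [update_self, rg, zero_add]
    erw [this]
    by_cases h : done ((nxt step addr sym w)^[T] []) = 1 <;> simp [h, Cd.enc]
  · have := h6 t j; nlinarith

end Vale.Agent.P312
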