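import Vale.Agent.P312.Mach

namespace Vale.Agent.P312
open Finset Function

inductive Steps' (f : List ℕ → List ℕ) (S : ℕ) : List ℕ → List ℕ → Prop
  | refl (l) : Steps' f S l l
  | step {l l'} : sz l ≤ S → Par.done l = 0 → Steps' f S (f l) l' → Steps' f S l l'

theorem Steps'.trans {f S a b c} (h : Steps' f S a b) (h' : Steps' f S b c) : Steps' f S a c := by
  induction h with
  | refl => exact h'
  | step h1 h2 _ ih => exact .step h1 h2 (ih h')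

theorem Steps'.mono {f S S' a b} (h : Steps' f S a b) (hS : S ≤ S') : Steps' f S' a b := by
  induction h with
  | refl => exact .refl _
  | step h1 h2 _ ih => exact .step (h1.trans hS) h2 ih

def wt (a : ℕ) : ℕ := 2 * a.size + 1
theorem wt_mono {a b : ℕ} (h : a ≤ b) : wt a ≤ wt b := by have := Nat.size_le_size h; unfold wt; omega
theorem sz_cons (a : ℕ) (l : List ℕ) : sz (a :: l) = wt a + sz l := by simp [sz, wt]
theorem sz_append (l l' : List ℕ) : sz (l ++ l') = sz l + sz l' := by simp [sz]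
def Sm (Z : ℕ) (st : List ℕ) : Prop := (∀ a ∈ st, a ≤ Z) ∧ st.length ≤ 32
theorem Sm.sz {Z : ℕ} {st : List ℕ} (h : Sm Z st) : sz st ≤ 32 * wt Z := by
  refine le_trans ?_ (Nat.mul_le_mul_right _ h.2)
  have h1 := h.1
  clear h
  induction st with
  | nil => simp [P312.sz]
  | cons a l ih =>
    have := ih fun b hb => h1 b (by simp [hb])
    have := wt_mono (h1 a (by simp))
    rw [sz_cons, List.length_cons, add_mul]; omega

namespace Par
variable (M : Par) (ρ : ℕ)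

theorem p_spec : (M.p ρ).Prime ∧ (ρ + 1) * M.L ρ + 2 < M.p ρ ∧ M.p ρ ≤ 2 * ((ρ + 1) * M.L ρ + 2) := by
  obtain ⟨q, h1, h2, h3⟩ := Nat.exists_prime_lt_and_le_two_mul ((ρ + 1) * M.L ρ + 2) (by omega)
  exact ⟨Nat.findGreatest_spec h3 h1, h2.trans_le (Nat.le_findGreatest h3 h1), Nat.findGreatest_le _⟩

instance : Fact (M.p ρ).Prime := ⟨(M.p_spec ρ).1⟩

abbrev P : ℕ := M.p ρ ^ M.L ρ
def Z : ℕ := M.p ρ + M.β ρ + ρ ^ 2 + 16
def W : ℕ := 32 * wt (M.Z ρ)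
def Big : ℕ := 32 * wt (M.Z ρ + M.β ρ ^ (ρ + 1))
def Lf : ℕ := 32 * wt (M.Z ρ + M.P ρ)

theorem two_le : 2 ^ M.L ρ ≤ M.P ρ := Nat.pow_le_pow_left (M.p_spec ρ).1.two_le _
theorem β_le : M.β ρ ^ (ρ ^ 2 + 1) ≤ 2 ^ M.L ρ := by
  rw [L, mul_comm, pow_mul]
  exact Nat.pow_le_pow_left ((Nat.le_add_right _ _).trans (Nat.lt_size_self _).le) _
theorem ng_le : M.ng ^ (ρ ^ 2) ≤ 2 ^ M.L ρ := by
  rw [L, mul_comm, pow_mul]
  exact (Nat.pow_le_pow_left ((Nat.le_add_left _ _).trans (Nat.lt_size_self _).le) _).trans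
    (Nat.pow_le_pow_right (by positivity) (by omega))
end Par

/-- a run context -/
structure Cx (α : Type) extends Par where
  w : List α
  sym : Option α → ℕ
  ρ : ℕ
  o : ℕ
  E : ℕ → ℕ
  Cn : ℕ → ℕ → ℕ
  hρ : 1 ≤ ρ
  hsym : ∀ s, sym s < ng
  hE0 : E 0 = q0 + nq * (ρ ^ 8 + o)
  hC0 : ∀ j, Cn 0 j = num ng (ρ ^ 2) fun i =>
    sym (readIn w (min (j * ρ ^ 2 + i + 1 - (ρ ^ 8 + o)) (w.length + 1)))
  hEs : ∀ i < ρ ^ 3, E (i + 1) = toPar.V ρ (toPar.P ρ) (E i) (Cn i (toPar.blk ρ (E i))) % toPar.β ρ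
  hCs : ∀ i < ρ ^ 3, ∀ j, Cn (i + 1) j =
    if toPar.blk ρ (E i) = j then toPar.V ρ (toPar.P ρ) (E i) (Cn i j) / toPar.β ρ else Cn i j
  hEb : ∀ i ≤ ρ ^ 3, E i < toPar.β ρ
  hCb : ∀ i ≤ ρ ^ 3, ∀ j, Cn i j < 2 ^ toPar.L ρ

namespace Cx
variable {α : Type} (c : Cx α)

abbrev Vec := ℕ → ZMod (c.p c.ρ)
abbrev Rg := c.Vec × c.Vec × c.Vec × c.Vec

def cf (R : c.Rg) (st : List ℕ) : List ℕ :=
  c.ρ :: c.o :: c.P c.ρ :: toN (c.L c.ρ) R.1 :: toN (c.L c.ρ) R.2.1 :: toN (c.L c.ρ) R.2.2.1 ::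
    toN (c.L c.ρ) R.2.2.2 :: st
def H : ℕ := wt c.ρ + wt c.o + 5 * wt (c.P c.ρ)
def St (n : ℕ) (R : c.Rg) (st : List ℕ) (R' : c.Rg) (st' : List ℕ) : Prop :=
  ∀ rest, Steps' (nxt c.step Par.addr c.sym c.w) (c.H + n + sz rest) (c.cf R (st ++ rest)) (c.cf R' (st' ++ rest))

variable {c}

theorem St.refl {n R st} : c.St n R st R st := fun _ => .refl _
theorem St.trans {n R st R' st' R'' st''} (h : c.St n R st R' st') (h' : c.St n R' st' R'' st'') :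
    c.St n R st R'' st'' := fun r => (h r).trans (h' r)
theorem St.mono {n m R st R' st'} (h : c.St n R st R' st') (hm : n ≤ m) : c.St m R st R' st' :=
  fun r => (h r).mono (by omega)
theorem St.cast {n R st R' st' R''} (h : c.St n R st R' st') (e : R' = R'') : c.St n R st R'' st' := e ▸ h
theorem St.seq {Z n m R s s1 R' s2 R'' s3} (h : c.St n R s1 R' []) (e : s = s1 ++ s2) (hs : Sm Z s)
    (hn : n + 32 * wt Z ≤ m) (h' : Sm Z s2 → c.St m R' s2 R'' s3) : c.St m R s R'' s3 := fun r => by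
  subst e
  have h2 : Sm Z s2 := ⟨fun a ha => hs.1 a (by simp [ha]), by have := hs.2; simp at this; omega⟩
  have := h (s2 ++ r)
  rw [← List.append_assoc, sz_append] at this
  exact (this.mono (by have := h2.sz; omega)).trans (h' h2 r)

theorem St.loop {n : ℕ} (R : ℕ → c.Rg) (fr : ℕ → List ℕ) {a b : ℕ} (hab : a ≤ b)
    (h : ∀ i, a ≤ i → i < b → c.St n (R i) (fr i) (R (i + 1)) (fr (i + 1))) :
    c.St n (R a) (fr a) (R b) (fr b) := by
  induction b, hab using Nat.le_induction with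
  | base => exact .refl
  | succ b hab ih => exact (ih fun i h1 h2 => h i h1 (by omega)).trans (h b hab (by omega))

theorem St.one (Z : ℕ) {n t : ℕ} {st : List ℕ} {R R' : c.Rg} {st' : List ℕ} (ht : 5 ≤ t) (hs : Sm Z (t :: st))
    (hn : 32 * wt Z ≤ n)
    (h : ∀ r, c.ρ :: c.o :: c.P c.ρ :: c.nA c.ρ c.o (c.P c.ρ) (toN (c.L c.ρ) R.1) (toN (c.L c.ρ) R.2.1) t
      ((st ++ r).getD 0 0) ((st ++ r).getD 1 0) ((st ++ r).getD 2 0) ((st ++ r).getD 3 0)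
      ((st ++ r).getD 4 0) ((st ++ r).getD 5 0) ::
      (if t = 15 then toN (c.L c.ρ) R.1 else toN (c.L c.ρ) R.2.1) ::
      c.nX c.ρ (c.P c.ρ) (toN (c.L c.ρ) R.1) (toN (c.L c.ρ) R.2.2.1) (toN (c.L c.ρ) R.2.2.2) t
        ((st ++ r).getD 0 0) ((st ++ r).getD 1 0) ((st ++ r).getD 2 0) ((st ++ r).getD 3 0) ::
      (if t = 16 then toN (c.L c.ρ) R.2.2.1 else toN (c.L c.ρ) R.2.2.2) ::
      c.stk c.ρ (c.P c.ρ) (toN (c.L c.ρ) R.2.1) (toN (c.L c.ρ) R.2.2.1) (c.sym (readIn c.w (min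
        ((st ++ r).getD 0 0 * c.ρ ^ 2 + (st ++ r).getD 2 0 + 1 - (c.ρ ^ 8 + c.o)) (c.w.length + 1)))) t
        (st ++ r) = c.cf R' (st' ++ r)) : c.St n R (t :: st) R' st' := fun r => by
  refine .step ?_ (if_neg (show t ≠ 1 by omega)) ?_
  · have := hs.sz
    have h1 := fun y : c.Vec => wt_mono (toN_lt (c.L c.ρ) y).le
    have := h1 R.1; have := h1 R.2.1; have := h1 R.2.2.1; have := h1 R.2.2.2
    simp only [cf, sz_cons, sz_append, H, Par.P] at *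
    omega
  · have e : nxt c.step Par.addr c.sym c.w (c.cf R (t :: st ++ r)) = c.cf R' (st' ++ r) :=
      (if_neg (show ¬ t < 5 by omega)).trans (h r)
    rw [e]; exact .refl _

variable {n : ℕ} {A B X Y : c.Vec}

theorem sw (hn : c.W c.ρ ≤ n) : c.St n (A, B, X, Y) [15] (B, A, X, Y) [] :=
  St.one (c.Z c.ρ) (by omega) (by simp [Sm, Par.Z]) hn fun r => by simp [Par.nA, Par.nX, Par.stk, cf]

theorem swc (hn : c.W c.ρ ≤ n) : c.St n (A, B, X, Y) [16] (A, B, Y, X) [] :=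
  St.one (c.Z c.ρ) (by omega) (by simp [Sm, Par.Z]) hn fun r => by simp [Par.nA, Par.nX, Par.stk, cf]

variable (c) in
def Tb (P : ℕ) : ℕ := num (c.β c.ρ) (c.ρ ^ 2 + 1) fun i => c.E (P * c.ρ + i - c.ρ ^ 2)
variable (c) in
def SpT (P n : ℕ) : Prop := ∀ a ≤ c.p c.ρ, ∀ A B X Y : c.Vec,
  c.St n (A, B, X, Y) [5, P, a] (A + (a : ZMod (c.p c.ρ)) • bits (c.Tb P), B, X, Y) []
variable (c) in
def SpC (g n : ℕ) : Prop := ∀ a ≤ c.p c.ρ, ∀ j ≤ c.β c.ρ, ∀ A B X Y : c.Vec,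
  c.St n (A, B, X, Y) [11, g, j, a] (A, B, X + (a : ZMod (c.p c.ρ)) • bits (c.Cn (g * c.ρ ^ 2) j), Y) []

theorem β_pos : 0 < c.β c.ρ := (Nat.zero_le _).trans_lt (c.hEb 0 (Nat.zero_le _))
theorem ng_pos : 0 < c.ng := (Nat.zero_le _).trans_lt (c.hsym none)
theorem β_le_P : c.β c.ρ ^ (c.ρ ^ 2 + 1) ≤ c.P c.ρ := (c.β_le _).trans (c.two_le _)

theorem spT0 (hn : c.W c.ρ ≤ n) : c.SpT 0 n := fun a ha A B X Y =>
  St.one (c.Z c.ρ) (by omega) (by simp [Sm, Par.Z]; omega) hn fun r => by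
    have e : numP (c.β c.ρ) (c.ρ ^ 2 + 1) (fun _ => c.q0 + c.nq * (c.ρ ^ 8 + c.o)) (c.P c.ρ) = c.Tb 0 := by
      rw [numP_eq _ β_pos β_le_P]
      exact num_congr fun i hi => by rw [← c.hE0]; congr 1; omega
    simp [Par.nA, Par.nX, Par.stk, cf, e, upd_eq]
    rfl

theorem spC0 (hn : c.Lf c.ρ ≤ n) : c.SpC 0 n := fun a ha j hj A B X Y => by
  have h1 : ∀ i ≤ c.ρ ^ 2, c.ng ^ i ≤ c.P c.ρ := fun i hi =>
    (Nat.pow_le_pow_right ng_pos hi).trans ((c.ng_le _).trans (c.two_le _))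
  refine .trans (St.one (c.Z c.ρ + c.P c.ρ) (R' := (A, B, X, Y)) (st' := [14, j, a, 0, 0]) (by omega)
    (by simp [Sm, Par.Z]; omega) hn fun r => by simp [Par.nA, Par.nX, Par.stk, cf]) <|
    .trans (St.loop (fun _ => (A, B, X, Y)) (fun i => [14, j, a, i, num c.ng i fun i =>
      c.sym (readIn c.w (min (j * c.ρ ^ 2 + i + 1 - (c.ρ ^ 8 + c.o)) (c.w.length + 1)))])
      (Nat.zero_le (c.ρ ^ 2)) fun i _ hi => St.one (c.Z c.ρ + c.P c.ρ) (by omega) ?_ hn fun r => ?_) <|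
    St.one (c.Z c.ρ + c.P c.ρ) (by omega) ?_ hn fun r => ?_
  · have := (num_lt (N := i) fun i _ => c.hsym (readIn c.w (min (j * c.ρ ^ 2 + i + 1 - (c.ρ ^ 8 + c.o))
      (c.w.length + 1)))).trans_le (h1 i hi.le)
    simp only [Sm, Par.Z, List.forall_mem_cons, List.length_cons]; simp; omega
  · simp [Par.nA, Par.nX, Par.stk, cf, hi, pw_eq (h1 i hi.le), num, sum_range_succ]
  · have := (c.hCb 0 (Nat.zero_le _) j).trans_le (c.two_le _)
    rw [← c.hC0]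
    simp only [Sm, Par.Z, List.forall_mem_cons, List.length_cons]; simp; omega
  · rw [← c.hC0]
    simp [Par.nA, Par.nX, Par.stk, cf, upd_eq]
    rfl

end Cx
end Vale.Agent.P312
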