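import Vale.Agent.P312.Spec

namespace Vale.Agent.P312
open Finset Function

section
variable {p : ℕ} [hp : Fact p.Prime]
theorem unmask {μ : ℕ} (h1 : 1 ≤ μ) (h2 : μ < p) (A T : ℕ → ZMod p) :
    (μ : ZMod p)⁻¹ • (A + (μ : ZMod p) • T) = T + (μ : ZMod p)⁻¹ • A := by
  have : (μ : ZMod p) ≠ 0 := fun h => by
    have := Nat.le_of_dvd h1 ((ZMod.natCast_eq_zero_iff _ _).1 h); omega
  rw [smul_add, smul_smul, inv_mul_cancel₀ this, one_smul, add_comm]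
theorem undo {μ : ℕ} (h2 : μ ≤ p) (A T : ℕ → ZMod p) :
    A + (μ : ZMod p) • T + ((p - μ : ℕ) : ZMod p) • T = A := by
  rw [add_assoc, ← add_smul, ← Nat.cast_add, show μ + (p - μ) = p by omega]; simp
theorem mod_val {n : ℕ} {x : ZMod p} (h : (n : ZMod p) = x) : n % p = x.val := by rw [← h, ZMod.val_natCast]
end

theorem Deg.mle' {F : Type} [Field F] {L d : ℕ} {f : ℕ → F → F} (h : ∀ z, Deg d (f z)) (y : ℕ → F) :
    Deg d fun x => P312.mle L (fun z => f z x) y := Deg.sum fun z _ => (h z).mul (Deg.const _)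

namespace Cx
variable {α : Type} {c : Cx α} {n n1 n2 : ℕ} {A B X Y : c.Vec}

theorem St.loop' {R0 R1 : c.Rg} {s0 s1 : List ℕ} (R : ℕ → c.Rg) (fr : ℕ → List ℕ) {a b : ℕ} (hab : a ≤ b)
    (e0 : s0 = fr a) (e1 : s1 = fr b) (e2 : R a = R0) (e3 : R b = R1)
    (h : ∀ i, a ≤ i → i < b → c.St n (R i) (fr i) (R (i + 1)) (fr (i + 1))) : c.St n R0 s0 R1 s1 := by
  subst e0 e1 e2 e3; exact St.loop R fr hab h

theorem St.to {R R' : c.Rg} {s s' : List ℕ} (s1 : List ℕ) (h : c.St n R s R s1) (h' : c.St n R s1 R' s') :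
    c.St n R s R' s' := h.trans h'

theorem p2 : 2 < c.p c.ρ := by have := (c.p_spec c.ρ).2.1; omega

theorem Rep_true {z s m k j : ℕ} (hm : m + k ≤ c.ρ ^ 3) (h : ∀ i < k, dg (c.β c.ρ) z (s + i) = c.E (m + i)) :
    c.Rep c.ρ (c.P c.ρ) j z s k (c.Cn m j) = c.Cn (m + k) j :=
  iterC_eq (fun i => c.Cn (m + i) j) rfl (fun i hi => by rw [h i hi, ← add_assoc, c.hCs _ (by omega)])
    fun i hi => (c.hCb _ (by omega) j).le.trans (c.two_le _)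

theorem Tb_dig {P : ℕ} (hP : P ≤ c.ρ ^ 2) : ∀ i < c.ρ ^ 2 + 1, c.E (P * c.ρ + i - c.ρ ^ 2) < c.β c.ρ :=
  fun i hi => c.hEb _ (by have := Nat.mul_le_mul_right c.ρ hP; rw [← pow_succ] at this; norm_num at this; omega)
theorem Tb_lt {P : ℕ} (hP : P ≤ c.ρ ^ 2) : c.Tb P < 2 ^ c.L c.ρ := (num_lt (Tb_dig hP)).trans_le (c.β_le _)
theorem dg_Tb {P i : ℕ} (hP : P ≤ c.ρ ^ 2) (hi : i ≤ c.ρ ^ 2) :
    dg (c.β c.ρ) (c.Tb P) i = c.E (P * c.ρ + i - c.ρ ^ 2) := dg_num (Tb_dig hP) (by omega)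

theorem ce {j a μ : ℕ} (hj : j ≤ c.β c.ρ) (ha : a ≤ c.p c.ρ) (hμ : μ ≤ c.p c.ρ) (hn : c.W c.ρ ≤ n) :
    c.St n (A, B, X, Y) [13, j, a, μ] (A, B, X + fun i => -((a : ZMod (c.p c.ρ)) * mle (c.L c.ρ) (fun z =>
      mle (c.L c.ρ) (fun C => bits (c.Rep c.ρ (c.P c.ρ) j z 0 (c.ρ ^ 2) C) i) ((μ : ZMod (c.p c.ρ))⁻¹ • Y))
      ((μ : ZMod (c.p c.ρ))⁻¹ • A)), Y) [] :=
  St.one (c.Z c.ρ) (by omega) (by simp [Sm, Par.Z]; omega) hn fun r => by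
    simp [Par.nA, Par.nX, Par.stk, cf, upd_eq, cast_pred, cast_mleN, cast_inv p2, bits]

theorem stepC {g : ℕ} (hg : g + 1 ≤ c.ρ) (hT : c.SpT ((g + 1) * c.ρ) n1) (hC : c.SpC g n1)
    (h1 : c.W c.ρ ≤ n1) (hn : n1 + c.W c.ρ ≤ n) : c.SpC (g + 1) n := fun a ha j hj A B X Y => by
  have hP : (g + 1) * c.ρ ≤ c.ρ ^ 2 := by rw [sq]; exact Nat.mul_le_mul_right _ hg
  have hg2 : g ≤ c.ρ ^ 2 := by nlinarith
  have hW : c.W c.ρ ≤ n := by omega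
  let Φ : ℕ → ZMod (c.p c.ρ) → ZMod (c.p c.ρ) := fun i x => mle (c.L c.ρ) (fun z =>
    mle (c.L c.ρ) (fun C => bits (c.Rep c.ρ (c.P c.ρ) j z 0 (c.ρ ^ 2) C) i)
      (bits (c.Cn (g * c.ρ ^ 2) j) + x • Y)) (bits (c.Tb ((g + 1) * c.ρ)) + x • A)
  refine .to [12, g, j, a, 1] (St.one (c.Z c.ρ) (by omega)
    (by simp [Sm, Par.Z]; omega) hW fun r => by simp [Par.nA, Par.nX, Par.stk, cf]) <|
    .trans (St.loop' (fun μ => (A, B, X + fun i => ∑ ν ∈ Ico 1 μ, -((a : ZMod (c.p c.ρ)) *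
      Φ i (ν : ZMod (c.p c.ρ))⁻¹), Y)) (fun μ => [12, g, j, a, μ]) (p2.le.trans' (by omega) : 1 ≤ c.p c.ρ)
      rfl rfl (by simp [← Pi.zero_def]) ?_ fun μ m1 m2 => ?_) <|
    St.one (c.Z c.ρ) (R := (A, B, X + (a : ZMod (c.p c.ρ)) • bits (c.Cn ((g + 1) * c.ρ ^ 2) j), Y))
      (by omega) (by simp [Sm, Par.Z]; omega) hW fun r => by simp [Par.nA, Par.nX, Par.stk, cf]
  swap
  · refine .to [5, (g + 1) * c.ρ, μ, 16, 11, g, j, μ, 16, 13, j, a, μ, 5, (g + 1) * c.ρ, c.p c.ρ - μ, 16, 11,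
      g, j, c.p c.ρ - μ, 16, 12, g, j, a, μ + 1] (St.one (c.Z c.ρ) (by omega)
      (by simp [Sm, Par.Z]; omega) hW fun r => by simp [Par.nA, Par.nX, Par.stk, cf, m2]) <|
      St.seq (hT μ m2.le _ _ _ _) rfl (by simp [Sm, Par.Z]; omega) hn fun hs =>
      St.seq (swc h1) rfl hs hn fun hs => St.seq (hC μ m2.le j hj _ _ _ _) rfl hs hn fun hs =>
      St.seq (swc h1) rfl hs hn fun hs => St.seq (ce hj ha m2.le h1) rfl hs hn fun hs =>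
      St.seq (hT _ (Nat.sub_le _ _) _ _ _ _) rfl hs hn fun hs => St.seq (swc h1) rfl hs hn fun hs =>
      St.seq (hC _ (Nat.sub_le _ _) j hj _ _ _ _) rfl hs hn fun hs =>
      St.seq (swc h1) rfl hs hn fun _ => St.refl.cast ?_
    rw [undo m2.le, undo m2.le, unmask m1 m2, unmask m1 m2]
    simp only [sum_Ico_succ_top m1, add_assoc]
    rfl
  · congr 4
    funext i
    have hD : Deg (0 + c.L c.ρ + c.L c.ρ) (Φ i) := Deg.mle (fun z => Deg.mle (fun C => Deg.const _) _ _) _ _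
    have h3 : g * c.ρ ^ 2 + c.ρ ^ 2 ≤ c.ρ ^ 3 := by
      have := Nat.mul_le_mul_right c.ρ hP; nlinarith
    rw [sum_neg_distrib, ← mul_sum, hD.cm (by
      have := (c.p_spec c.ρ).2.1; have := Nat.mul_le_mul_right (c.L c.ρ) c.hρ; rw [add_mul] at *; omega)]
    simp only [Φ, zero_smul, add_zero, mle_bits (Tb_lt hP), mle_bits (c.hCb (g * c.ρ ^ 2) (by omega) j)]
    rw [Rep_true h3 fun i hi => by rw [dg_Tb hP (by omega)]; congr 1; rw [mul_assoc, ← sq, add_mul]; omega]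
    simp [add_mul]

end Cx
end Vale.Agent.P312
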