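import Vale.Agent.P312.Spec2

namespace Vale.Agent.P312
open Finset Function

namespace Cx
variable {α : Type} {c : Cx α} {n n1 n2 : ℕ} {A B X Y : c.Vec}

theorem dg_mg {z γ i : ℕ} (hi : i ≤ c.ρ ^ 2) : dg (c.β c.ρ) (c.mg c.ρ (c.P c.ρ) z γ) i =
    if i + c.ρ < c.ρ ^ 2 then dg (c.β c.ρ) z (i + c.ρ) else dg (c.β c.ρ) γ (i + c.ρ - c.ρ ^ 2) := by
  rw [Par.mg, numP_eq _ β_pos β_le_P, dg_num (fun i _ => by split_ifs <;> exact dg_lt β_pos _ _) (by omega)]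

theorem dg_mg_true {P γ u i : ℕ} (hP : P ≤ c.ρ ^ 2) (hγ : ∀ v ≤ u, dg (c.β c.ρ) γ v = c.E (P * c.ρ + v))
    (hi : i ≤ c.ρ ^ 2) (hu : i + c.ρ ≤ c.ρ ^ 2 + u) :
    dg (c.β c.ρ) (c.mg c.ρ (c.P c.ρ) (c.Tb P) γ) i = c.E ((P + 1) * c.ρ + i - c.ρ ^ 2) := by
  rw [dg_mg hi, add_mul]
  split_ifs with h
  · rw [dg_Tb hP h.le]; congr 1; omega
  · rw [hγ _ (by omega)]; congr 1; omega

theorem chk_true {P γ u : ℕ} (hP : P < c.ρ ^ 2) (hu : u < c.ρ)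
    (hγ : ∀ v ≤ u, dg (c.β c.ρ) γ v = c.E (P * c.ρ + v)) :
    c.chk c.ρ (c.P c.ρ) (P % c.ρ) γ u (c.Tb P) (c.Cn (P / c.ρ * c.ρ ^ 2) (c.blk c.ρ (dg (c.β c.ρ) γ u))) =
      if dg (c.β c.ρ) γ (u + 1) = c.E (P * c.ρ + (u + 1)) then 1 else 0 := by
  have h1 : P * c.ρ = P / c.ρ * c.ρ ^ 2 + P % c.ρ * c.ρ := by
    conv_lhs => rw [← Nat.div_add_mod' P c.ρ]
    ring
  have h2 : (P % c.ρ + 1) * c.ρ ≤ c.ρ ^ 2 := by
    rw [sq]; exact Nat.mul_le_mul_right _ (Nat.mod_lt _ c.hρ)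
  have h3 : (P + 1) * c.ρ ≤ c.ρ ^ 3 := by rw [pow_succ]; exact Nat.mul_le_mul_right _ hP
  rw [add_mul, one_mul] at h2 h3
  rw [Par.chk, Rep_true (by omega) fun i hi => by
    rw [dg_mg_true hP.le hγ (by rw [add_mul]; omega) (by rw [add_mul]; omega)]
    congr 1; simp only [add_mul]; omega]
  rw [dg_Tb hP.le le_rfl, hγ 0 (by omega), hγ u le_rfl,
    show P / c.ρ * c.ρ ^ 2 + (P % c.ρ * c.ρ + u) = P * c.ρ + u by omega, ← c.hEs _ (by omega)]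
  simp [eq_comm, add_assoc]

theorem guess {F : Type} [Field F] {P : ℕ} (hP : P < c.ρ ^ 2) (f : ℕ → F) :
    ∑ γ ∈ range (c.β c.ρ ^ (c.ρ + 1)), (∏ u ∈ range c.ρ, (c.chk c.ρ (c.P c.ρ) (P % c.ρ) γ u (c.Tb P)
      (c.Cn (P / c.ρ * c.ρ ^ 2) (c.blk c.ρ (dg (c.β c.ρ) γ u))) : F)) * f (c.mg c.ρ (c.P c.ρ) (c.Tb P) γ) =
      f (c.Tb (P + 1)) := by
  have h3 : (P + 1) * c.ρ ≤ c.ρ ^ 3 := by rw [pow_succ]; exact Nat.mul_le_mul_right _ hP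
  have h4 : ∀ v < c.ρ + 1, c.E (P * c.ρ + v) < c.β c.ρ := fun v hv => c.hEb _ (by rw [add_mul] at h3; omega)
  have h5 : ∀ v ≤ c.ρ, dg (c.β c.ρ) (num (c.β c.ρ) (c.ρ + 1) fun v => c.E (P * c.ρ + v)) v =
      c.E (P * c.ρ + v) := fun v hv => dg_num h4 (by omega)
  rw [sum_eq_single_of_mem _ (mem_range.2 (num_lt h4)) fun γ hγ hne => ?_]
  · rw [prod_eq_one fun u hu => by
      have := mem_range.1 hu
      rw [chk_true hP this fun v hv => h5 v (by omega), if_pos (h5 _ (by omega)), Nat.cast_one], one_mul]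
    congr 1
    refine digit_ext (c.β c.ρ) (c.ρ ^ 2 + 1) ?_ (num_lt (Tb_dig hP)) fun i hi => ?_
    · rw [Par.mg, numP_eq _ β_pos β_le_P]
      exact num_lt fun i _ => by split_ifs <;> exact dg_lt β_pos _ _
    · rw [dg_mg_true hP.le h5 (by omega) (by omega), dg_Tb hP (by omega)]
  · have h6 : ∃ v, v ≤ c.ρ ∧ dg (c.β c.ρ) γ v ≠ c.E (P * c.ρ + v) := by
      by_contra! h
      exact hne (digit_ext _ _ (mem_range.1 hγ) (num_lt h4) fun k hk => by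
        rw [h k (by omega), h5 k (by omega)])
    classical
    have h7 := Nat.find_spec h6
    have h8 := fun m => Nat.find_min h6 (m := m)
    generalize Nat.find h6 = v at h7 h8
    rcases v with _ | u
    · rw [prod_eq_zero (mem_range.2 c.hρ), zero_mul]
      rw [Par.chk, if_neg, Nat.cast_zero]
      rw [dg_Tb hP.le le_rfl, Nat.add_sub_cancel]
      exact fun h => h7.2 h.1.symm
    · rw [prod_eq_zero (mem_range.2 (show u < c.ρ by omega)), zero_mul]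
      rw [chk_true hP (by omega) fun v hv => by have := h8 v (by omega); push Not at this; exact this (by omega),
        if_neg h7.2, Nat.cast_zero]

variable (c) in
def fac (P γ u : ℕ) (y : c.Vec) : ZMod (c.p c.ρ) := mle (c.L c.ρ) (fun z => (c.chk c.ρ (c.P c.ρ) (P % c.ρ) γ u z
  (c.Cn (P / c.ρ * c.ρ ^ 2) (c.blk c.ρ (dg (c.β c.ρ) γ u))) : ZMod (c.p c.ρ))) y

theorem blk_le (γ u : ℕ) : c.blk c.ρ (dg (c.β c.ρ) γ u) ≤ c.β c.ρ :=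
  (Nat.div_le_self _ _).trans ((Nat.div_le_self _ _).trans (dg_lt β_pos _ _).le)

theorem spU {P a μ γ u : ℕ} (hP : P < c.ρ ^ 2) (hC : c.SpC (P / c.ρ) n1) (hn : n1 + c.Big c.ρ ≤ n)
    (ha : a ≤ c.p c.ρ) (hμ : μ ≤ c.p c.ρ) (hγ : γ ≤ c.β c.ρ ^ (c.ρ + 1)) (hu : u < c.ρ) (acc : ZMod (c.p c.ρ)) :
    c.St n (A, B, X, Y) [8, P, a, μ, γ, u, acc.val] (A, B, X, Y)
      [8, P, a, μ, γ, u + 1, (acc * c.fac P γ u ((μ : ZMod (c.p c.ρ))⁻¹ • B)).val] := by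
  have hB : c.Big c.ρ ≤ n := by omega
  have h0 := (ZMod.val_lt acc).le
  have h1 : c.ρ ≤ c.ρ ^ 2 := Nat.le_self_pow (by omega) _
  have h2 := Nat.div_le_self P c.ρ
  have h3 := blk_le (c := c) γ u
  set j := c.blk c.ρ (dg (c.β c.ρ) γ u) with hj
  let ψ : ZMod (c.p c.ρ) → ZMod (c.p c.ρ) := fun x => mle (c.L c.ρ) (fun z => mle (c.L c.ρ)
    (fun C => (c.chk c.ρ (c.P c.ρ) (P % c.ρ) γ u z C : ZMod (c.p c.ρ)))
      (bits (c.Cn (P / c.ρ * c.ρ ^ 2) j) + x • X)) ((μ : ZMod (c.p c.ρ))⁻¹ • B)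
  have hv := fun x : ZMod (c.p c.ρ) => (ZMod.val_lt x).le
  refine .to [9, P, a, μ, γ, u, acc.val, 1, 0] (St.one (c.Z c.ρ + c.β c.ρ ^ (c.ρ + 1)) (by omega)
    (by simp [Sm, Par.Z]; omega) hB fun r => by simp [Par.nA, Par.nX, Par.stk, cf, hu]) <|
    .trans (St.loop' (fun _ => (A, B, X, Y)) (fun ν => [9, P, a, μ, γ, u, acc.val, ν,
      (∑ ν ∈ Ico 1 ν, ψ (ν : ZMod (c.p c.ρ))⁻¹).val]) (p2.le.trans' (by omega) : 1 ≤ c.p c.ρ)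
      (by simp) rfl rfl rfl fun ν m1 m2 => ?_) <|
    St.one (c.Z c.ρ + c.β c.ρ ^ (c.ρ + 1)) (by omega) ?_ hB fun r => ?_
  · have := hv (∑ ν ∈ Ico 1 ν, ψ (ν : ZMod (c.p c.ρ))⁻¹)
    have := hv (∑ ν ∈ Ico 1 (ν + 1), ψ (ν : ZMod (c.p c.ρ))⁻¹)
    refine .to [11, P / c.ρ, j, ν, 10, P, a, μ, γ, u, acc.val, ν, (∑ ν ∈ Ico 1 ν, ψ (ν : ZMod (c.p c.ρ))⁻¹).val]
      (St.one (c.Z c.ρ + c.β c.ρ ^ (c.ρ + 1)) (by omega) (by simp [Sm, Par.Z]; omega) hB fun r => by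
        simp [Par.nA, Par.nX, Par.stk, cf, m2, hj]) <|
      St.seq (hC ν m2.le j h3 _ _ _ _) rfl (by simp [Sm, Par.Z]; omega) hn fun hs =>
      .to [11, P / c.ρ, j, c.p c.ρ - ν, 9, P, a, μ, γ, u, acc.val, ν + 1,
        (∑ ν ∈ Ico 1 (ν + 1), ψ (ν : ZMod (c.p c.ρ))⁻¹).val] (St.one _ (by omega) hs hB fun r => ?_) <|
      St.seq (hC _ (Nat.sub_le _ _) j h3 _ _ _ _) rfl (by simp [Sm, Par.Z]; omega) hn fun hs =>
        St.refl.cast (by rw [undo m2.le])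
    simp [Par.nA, Par.nX, Par.stk, cf, hj]
    rw [← Nat.add_mod_mod, Nat.add_mod_mod]
    refine mod_val ?_
    simp [cast_mleN, cast_inv p2, unmask m1 m2, sum_Ico_succ_top m1, ψ, hj]
  · have := hv (∑ ν ∈ Ico 1 (c.p c.ρ), ψ (ν : ZMod (c.p c.ρ))⁻¹)
    simp [Sm, Par.Z]; omega
  · have hD : Deg (0 + c.L c.ρ) ψ := Deg.mle' (fun z => Deg.mle (fun C => Deg.const _) _ _) _
    have h4 : P / c.ρ * c.ρ ^ 2 ≤ c.ρ ^ 3 := by
      rw [pow_succ' _ 2]; exact Nat.mul_le_mul_right _ (Nat.div_le_of_le_mul (by rw [← sq]; omega))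
    rw [hD.cm (by have := (c.p_spec c.ρ).2.1; rw [add_mul] at *; omega)]
    simp [Par.nA, Par.nX, Par.stk, cf]
    refine mod_val ?_
    simp [cast_pred, ψ, fac, mle_bits (c.hCb _ h4 _), hj]

theorem spG {P a μ γ : ℕ} (hP : P < c.ρ ^ 2) (hC : c.SpC (P / c.ρ) n1) (hn : n1 + c.Big c.ρ ≤ n)
    (ha : a ≤ c.p c.ρ) (hμ : μ ≤ c.p c.ρ) (hγ : γ ≤ c.β c.ρ ^ (c.ρ + 1)) :
    c.St n (A, B, X, Y) [8, P, a, μ, γ, 0, 1] (A + fun i => -((a : ZMod (c.p c.ρ)) *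
      ((∏ u ∈ range c.ρ, c.fac P γ u ((μ : ZMod (c.p c.ρ))⁻¹ • B)) *
        mle (c.L c.ρ) (fun z => bits (c.mg c.ρ (c.P c.ρ) z γ) i) ((μ : ZMod (c.p c.ρ))⁻¹ • B))), B, X, Y) [] := by
  have h1 : c.ρ ≤ c.ρ ^ 2 := Nat.le_self_pow (by omega) _
  refine .trans (St.loop' (fun _ => (A, B, X, Y)) (fun u => [8, P, a, μ, γ, u,
      (∏ u ∈ range u, c.fac P γ u ((μ : ZMod (c.p c.ρ))⁻¹ • B)).val]) (Nat.zero_le c.ρ)
      (by simp [ZMod.val_one]) rfl rfl rfl fun u _ hu => ?_) <|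
    St.one (c.Z c.ρ + c.β c.ρ ^ (c.ρ + 1)) (by omega) ?_ (by unfold Par.Big at hn; omega) fun r => ?_
  · rw [prod_range_succ]; exact spU hP hC hn ha hμ hγ hu _
  · have := ZMod.val_lt (∏ u ∈ range c.ρ, c.fac P γ u ((μ : ZMod (c.p c.ρ))⁻¹ • B))
    simp [Sm, Par.Z]; omega
  · simp [Par.nA, Par.nX, Par.stk, cf, upd_eq, cast_pred, cast_mleN, cast_inv p2, bits]

theorem spG2 {P a μ : ℕ} (hP : P < c.ρ ^ 2) (hC : c.SpC (P / c.ρ) n1) (hn : n1 + 2 * c.Big c.ρ ≤ n)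
    (ha : a ≤ c.p c.ρ) (hμ : μ ≤ c.p c.ρ) :
    c.St n (A, B, X, Y) [7, P, a, μ, 0] (A + fun i => -((a : ZMod (c.p c.ρ)) *
      ∑ γ ∈ range (c.β c.ρ ^ (c.ρ + 1)), (∏ u ∈ range c.ρ, c.fac P γ u ((μ : ZMod (c.p c.ρ))⁻¹ • B)) *
        mle (c.L c.ρ) (fun z => bits (c.mg c.ρ (c.P c.ρ) z γ) i) ((μ : ZMod (c.p c.ρ))⁻¹ • B)), B, X, Y) [] := by
  have h1 : c.ρ ≤ c.ρ ^ 2 := Nat.le_self_pow (by omega) _
  have h2 : pw (c.β c.ρ) (c.ρ + 1) (c.P c.ρ) = c.β c.ρ ^ (c.ρ + 1) :=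
    pw_eq ((Nat.pow_le_pow_right β_pos (by omega)).trans β_le_P)
  have hB : c.Big c.ρ ≤ n := by omega
  refine .trans (St.loop' (fun γ => (A + fun i => -((a : ZMod (c.p c.ρ)) *
      ∑ γ ∈ range γ, (∏ u ∈ range c.ρ, c.fac P γ u ((μ : ZMod (c.p c.ρ))⁻¹ • B)) *
        mle (c.L c.ρ) (fun z => bits (c.mg c.ρ (c.P c.ρ) z γ) i) ((μ : ZMod (c.p c.ρ))⁻¹ • B)), B, X, Y))
      (fun γ => [7, P, a, μ, γ]) (Nat.zero_le (c.β c.ρ ^ (c.ρ + 1)))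
      rfl rfl (by simp [← Pi.zero_def]) rfl fun γ _ hγ => ?_) <|
    St.one (c.Z c.ρ + c.β c.ρ ^ (c.ρ + 1)) (by omega) (by simp [Sm, Par.Z]; omega) hB fun r => by
      simp [Par.nA, Par.nX, Par.stk, cf, h2]
  refine .to [8, P, a, μ, γ, 0, 1, 7, P, a, μ, γ + 1] (St.one (c.Z c.ρ + c.β c.ρ ^ (c.ρ + 1)) (by omega)
    (by simp [Sm, Par.Z]; omega) hB fun r => by simp [Par.nA, Par.nX, Par.stk, cf, h2, hγ]) <|
    St.seq (Z := c.Z c.ρ + c.β c.ρ ^ (c.ρ + 1)) (spG hP hC le_rfl ha hμ hγ.le) rfl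
      (by simp [Sm, Par.Z]; omega) (by unfold Par.Big at *; omega) fun _ => St.refl.cast ?_
  simp only [sum_range_succ, mul_add, neg_add, add_assoc]
  rfl

theorem stepT {P : ℕ} (hP : P < c.ρ ^ 2) (hT : c.SpT P n1) (hC : c.SpC (P / c.ρ) n2) (h1 : c.W c.ρ ≤ n1)
    (hn : n1 + c.W c.ρ ≤ n) (hn2 : n2 + 2 * c.Big c.ρ + c.W c.ρ ≤ n) : c.SpT (P + 1) n := fun a ha A B X Y => by
  have hW : c.W c.ρ ≤ n := by omega
  let Φ : ℕ → ZMod (c.p c.ρ) → ZMod (c.p c.ρ) := fun i x =>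
    ∑ γ ∈ range (c.β c.ρ ^ (c.ρ + 1)), (∏ u ∈ range c.ρ, c.fac P γ u (bits (c.Tb P) + x • B)) *
      mle (c.L c.ρ) (fun z => bits (c.mg c.ρ (c.P c.ρ) z γ) i) (bits (c.Tb P) + x • B)
  refine .to [6, P, a, 1] (St.one (c.Z c.ρ) (by omega)
    (by simp [Sm, Par.Z]; omega) hW fun r => by simp [Par.nA, Par.nX, Par.stk, cf]) <|
    .trans (St.loop' (fun μ => (A + fun i => ∑ ν ∈ Ico 1 μ, -((a : ZMod (c.p c.ρ)) *
      Φ i (ν : ZMod (c.p c.ρ))⁻¹), B, X, Y)) (fun μ => [6, P, a, μ]) (p2.le.trans' (by omega) : 1 ≤ c.p c.ρ)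
      rfl rfl (by simp [← Pi.zero_def]) ?_ fun μ m1 m2 => ?_) <|
    St.one (c.Z c.ρ) (R := (A + (a : ZMod (c.p c.ρ)) • bits (c.Tb (P + 1)), B, X, Y))
      (by omega) (by simp [Sm, Par.Z]; omega) hW fun r => by simp [Par.nA, Par.nX, Par.stk, cf]
  swap
  · refine .to [15, 5, P, μ, 15, 7, P, a, μ, 0, 15, 5, P, c.p c.ρ - μ, 15, 6, P, a, μ + 1]
      (St.one (c.Z c.ρ) (by omega)
      (by simp [Sm, Par.Z]; omega) hW fun r => by simp [Par.nA, Par.nX, Par.stk, cf, m2]) <|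
      St.seq (sw h1) rfl (by simp [Sm, Par.Z]; omega) hn fun hs =>
      St.seq (hT μ m2.le _ _ _ _) rfl hs hn fun hs => St.seq (sw h1) rfl hs hn fun hs =>
      St.seq (spG2 hP hC le_rfl ha m2.le) rfl hs hn2 fun hs => St.seq (sw h1) rfl hs hn fun hs =>
      St.seq (hT _ (Nat.sub_le _ _) _ _ _ _) rfl hs hn fun hs =>
      St.seq (sw h1) rfl hs hn fun _ => St.refl.cast ?_
    rw [undo m2.le, unmask m1 m2]
    simp only [sum_Ico_succ_top m1, add_assoc]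
    rfl
  · congr 2
    funext i
    have hD : Deg (c.ρ * (0 + c.L c.ρ) + (0 + c.L c.ρ)) (Φ i) := Deg.sum fun γ _ =>
      (Deg.prod fun u _ => Deg.mle (fun z => Deg.const _) _ _).mul (Deg.mle (fun z => Deg.const _) _ _)
    rw [sum_neg_distrib, ← mul_sum, hD.cm (by
      have := (c.p_spec c.ρ).2.1; rw [add_mul] at this; rw [zero_add]; omega)]
    simp only [Φ, zero_smul, add_zero, fac, mle_bits (Tb_lt hP.le)]
    rw [guess hP fun z => bits z i]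
    simp

variable (c) in
def nT (P : ℕ) : ℕ := c.Lf c.ρ + 2 * P * c.W c.ρ + 2 * ((P + c.ρ - 1) / c.ρ) * c.Big c.ρ

theorem spec_all (P : ℕ) (hP : P ≤ c.ρ ^ 2) : c.SpT P (c.nT P) ∧
    ∀ g, g * c.ρ ≤ P → c.SpC g (c.nT (g * c.ρ) + c.W c.ρ) := by
  have hρ := c.hρ
  have hW : c.W c.ρ ≤ c.Lf c.ρ := Nat.mul_le_mul_left _ (wt_mono (by omega))
  have h0 : ∀ g, c.nT (g * c.ρ) = c.Lf c.ρ + 2 * (g * c.ρ) * c.W c.ρ + 2 * g * c.Big c.ρ := fun g => by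
    rw [nT, show g * c.ρ + c.ρ - 1 = (c.ρ - 1) + c.ρ * g by rw [mul_comm]; omega, Nat.add_mul_div_left _ _ hρ,
      Nat.div_eq_of_lt (by omega), zero_add]
  induction P with
  | zero =>
    refine ⟨spT0 (by unfold nT; omega), fun g hg => ?_⟩
    obtain rfl : g = 0 := by nlinarith
    exact spC0 (by unfold nT; omega)
  | succ P ih =>
    obtain ⟨h1, h2⟩ := ih (by omega)
    have h3 : c.SpT (P + 1) (c.nT (P + 1)) := by
      have h4 := Nat.div_mul_le_self P c.ρ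
      have h5 : (P + 1 + c.ρ - 1) / c.ρ = P / c.ρ + 1 := by
        rw [← Nat.add_div_right _ hρ]; congr 1; omega
      have h6 : (P + c.ρ - 1) / c.ρ ≤ P / c.ρ + 1 := h5 ▸ Nat.div_le_div_right (by omega)
      refine stepT (by omega) h1 (h2 _ h4) (by unfold nT; omega) ?_ ?_
      · unfold nT; rw [h5]; nlinarith
      · rw [h0, nT, h5]; nlinarith
    refine ⟨h3, fun g hg => ?_⟩
    rcases hg.eq_or_lt with e | hg
    · rcases g with _ | g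
      · omega
      · have h4 : g * c.ρ ≤ P := by rw [add_mul] at e; omega
        refine stepC (n1 := c.nT ((g + 1) * c.ρ)) (by nlinarith) (e ▸ h3)
          (fun a ha j hj A B X Y => (h2 g h4 a ha j hj A B X Y).mono ?_) (by unfold nT; omega) le_rfl
        rw [h0, h0]; nlinarith
    · exact h2 g (by omega)

end Cx
end Vale.Agent.P312
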