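import Vale.Agent.P312.Defs

namespace Vale.Agent.P312
open Function

/-- counter programs with a read-only input -/
inductive Prog (A : Type) : Type
  | skip : Prog A
  | inc (r : ℕ) : Prog A
  | dec (r : ℕ) : Prog A
  | mv (m : Move) : Prog A
  | seq (p q : Prog A) : Prog A
  | whl (r : ℕ) (p : Prog A) : Prog A
  | cas (f : Option A → Prog A) : Prog A

variable {A : Type}

inductive Run (w : List A) (B : ℕ) : Prog A → (ℕ → ℕ) → ℕ → (ℕ → ℕ) → ℕ → Prop
  | skip (σ h) : Run w B .skip σ h σ h
  | inc (r σ h) : σ r ≤ B → Run w B (.inc r) σ h (update σ r (σ r + 1)) h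
  | dec (r σ h) : σ r ≤ B → Run w B (.dec r) σ h (update σ r (σ r - 1)) h
  | mv (m σ h) : Run w B (.mv m) σ h σ (min (m.nat h) (w.length + 1))
  | seq {p q σ h σ' h' σ'' h''} : Run w B p σ h σ' h' → Run w B q σ' h' σ'' h'' →
      Run w B (.seq p q) σ h σ'' h''
  | stop {r p σ h} : σ r = 0 → Run w B (.whl r p) σ h σ h
  | go {r p σ h σ' h' σ'' h''} : σ r ≠ 0 → Run w B p σ h σ' h' → Run w B (.whl r p) σ' h' σ'' h'' →
      Run w B (.whl r p) σ h σ'' h''
  | cas {f σ h σ' h'} : Run w B (f (readIn w h)) σ h σ' h' → Run w B (.cas f) σ h σ' h'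

theorem Run.mono {w : List A} {B B' : ℕ} (hB : B ≤ B') {p σ h σ' h'} (H : Run w B p σ h σ' h') :
    Run w B' p σ h σ' h' := by
  induction H with
  | skip => exact .skip _ _
  | inc r σ h h1 => exact .inc _ _ _ (h1.trans hB)
  | dec r σ h h1 => exact .dec _ _ _ (h1.trans hB)
  | mv => exact .mv _ _ _
  | seq _ _ h1 h2 => exact .seq h1 h2
  | stop h1 => exact .stop h1
  | go h0 _ _ h1 h2 => exact .go h0 h1 h2
  | cas _ h1 => exact .cas h1

theorem Run.head_le {w : List A} {B : ℕ} {p σ h σ' h'} (H : Run w B p σ h σ' h')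
    (hh : h ≤ w.length + 1) : h' ≤ w.length + 1 := by
  induction H with
  | mv => exact min_le_right _ _
  | seq _ _ h1 h2 => exact h2 (h1 hh)
  | go _ _ _ h1 h2 => exact h2 (h1 hh)
  | cas _ h1 => exact h1 hh
  | _ => exact hh

def Lab : Prog A → Type
  | .skip => Unit
  | .inc _ => Bool
  | .dec _ => Option Bool
  | .mv _ => Unit
  | .seq p q => Lab p ⊕ Lab q
  | .whl _ p => Option (Lab p)
  | .cas f => Option (Σ s, Lab (f s))

instance labFin [Finite A] : (p : Prog A) → Finite (Lab p)
  | .skip => inferInstanceAs (Finite Unit)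
  | .inc _ => inferInstanceAs (Finite Bool)
  | .dec _ => inferInstanceAs (Finite (Option Bool))
  | .mv _ => inferInstanceAs (Finite Unit)
  | .seq p q => by
    have := labFin p; have := labFin q; exact inferInstanceAs (Finite (Lab p ⊕ Lab q))
  | .whl _ p => by have := labFin p; exact inferInstanceAs (Finite (Option (Lab p)))
  | .cas f => by
    have := fun s => labFin (f s); exact inferInstanceAs (Finite (Option (Σ s, Lab (f s))))

def entry : (p : Prog A) → Lab p
  | .skip => ()
  | .inc _ => true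
  | .dec _ => none
  | .mv _ => ()
  | .seq p _ => Sum.inl (entry p)
  | .whl _ _ => none
  | .cas _ => none

def Uses (k : ℕ) : Prog A → Prop
  | .skip => True
  | .inc r => r < k
  | .dec r => r < k
  | .mv _ => True
  | .seq p q => Uses k p ∧ Uses k q
  | .whl r p => r < k ∧ Uses k p
  | .cas f => ∀ s, Uses k (f s)

theorem Uses.mono {k k' : ℕ} (h : k ≤ k') : (p : Prog A) → Uses k p → Uses k' p
  | .skip, _ => trivial
  | .inc _, H => lt_of_lt_of_le H h
  | .dec _, H => lt_of_lt_of_le H h
  | .mv _, _ => trivial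
  | .seq p q, H => ⟨mono h p H.1, mono h q H.2⟩
  | .whl _ p, H => ⟨lt_of_lt_of_le H.1 h, mono h p H.2⟩
  | .cas f, H => fun s => mono h (f s) (H s)

theorem exists_uses [Finite A] : (p : Prog A) → ∃ k, Uses k p
  | .skip => ⟨0, trivial⟩
  | .inc r => ⟨r + 1, Nat.lt_succ_self r⟩
  | .dec r => ⟨r + 1, Nat.lt_succ_self r⟩
  | .mv _ => ⟨0, trivial⟩
  | .seq p q => by
    obtain ⟨k, h⟩ := exists_uses p; obtain ⟨k', h'⟩ := exists_uses q
    exact ⟨max k k', Uses.mono (le_max_left _ _) p h, Uses.mono (le_max_right _ _) q h'⟩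
  | .whl r p => by
    obtain ⟨k, h⟩ := exists_uses p
    exact ⟨max k (r + 1), lt_of_lt_of_le (Nat.lt_succ_self r) (le_max_right _ _),
      Uses.mono (le_max_left _ _) p h⟩
  | .cas f => by
    choose k h using fun s => exists_uses (f s)
    obtain ⟨K, hK⟩ := (Set.finite_range k).bddAbove
    exact ⟨K, fun s => Uses.mono (hK ⟨s, rfl⟩) _ (h s)⟩

/-- bijective binary digits -/
def dgt : ℕ → ℕ → Fin 3
  | 0, _ => 0
  | x + 1, 0 => if x % 2 = 0 then 1 else 2
  | x + 1, p + 1 => dgt (x / 2) p

def tpe (j : ℕ) (d : Fin 3) (x : ℕ) (c : ℕ) : Fin 3 :=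
  if c = 0 then 0 else if c ≤ j then d else dgt x (c - j - 1)

abbrev Act (k : ℕ) (Λ : Type) := Λ × Move × (Fin k → Fin 3 × Move)

def act {k : ℕ} {Λ : Type} (l : Λ) (r : ℕ) (v : Fin k → Fin 3) (a : Fin 3) (m : Move) : Act k Λ :=
  (l, .stay, fun j => if j.val = r then (a, m) else (v j, .stay))

def rd {k : ℕ} (r : ℕ) (v : Fin k → Fin 3) : Fin 3 := if h : r < k then v ⟨r, h⟩ else 0

def code (k : ℕ) {Λ : Type} : (p : Prog A) → (Lab p → Λ) → Λ → Lab p → Option A → (Fin k → Fin 3) → Act k Λ
  | .skip, _, next, _, _, v => (next, .stay, fun j => (v j, .stay))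
  | .inc r, emb, _, true, _, v => if rd r v = 2 then act (emb true) r v 1 .right
      else act (emb false) r v (rd r v + 1) .stay
  | .inc r, emb, next, false, _, v => if rd r v = 0 then act next r v 0 .right
      else act (emb false) r v (rd r v) .left
  | .dec r, emb, _, none, _, v => if rd r v = 2 then act (emb (some false)) r v 1 .stay
      else if rd r v = 1 then act (emb none) r v 2 .right else act (emb (some true)) r v 0 .left
  | .dec r, emb, _, some true, _, v => act (emb (some false)) r v 0 .left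
  | .dec r, emb, next, some false, _, v => if rd r v = 0 then act next r v 0 .right
      else act (emb (some false)) r v (rd r v) .left
  | .mv m, _, next, _, _, v => (next, m, fun j => (v j, .stay))
  | .seq p q, emb, _, Sum.inl l, s, v => code k p (fun x => emb (.inl x)) (emb (.inr (entry q))) l s v
  | .seq _ q, emb, next, Sum.inr l, s, v => code k q (fun x => emb (.inr x)) next l s v
  | .whl r p, emb, next, none, _, v =>
      (if rd r v = 0 then next else emb (some (entry p)), .stay, fun j => (v j, .stay))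
  | .whl _ p, emb, _, some l, s, v => code k p (fun x => emb (some x)) (emb none) l s v
  | .cas f, emb, _, none, s, v => (emb (some ⟨s, entry (f s)⟩), .stay, fun j => (v j, .stay))
  | .cas f, emb, next, some ⟨t, l⟩, s, v => code k (f t) (fun x => emb (some ⟨t, x⟩)) next l s v

section
variable {Λ : Type} [Finite Λ] {k : ℕ} {st : Λ} {out : Λ → Option Bool}
  {δ : Λ → Option A → (Fin k → Fin 3) → Act k Λ}

variable (st out δ) in
@[reducible] def mach : SpaceTM A := ⟨Λ, Fin 3, inferInstance, inferInstance, k, st, 0, out, δ⟩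

inductive Steps (M : SpaceTM A) (w : List A) (S : ℕ) : M.Cfg → M.Cfg → Prop
  | refl (c) : Steps M w S c c
  | step {c c'} : (∀ j, (M.step w c).head j ≤ S) → Steps M w S (M.step w c) c' → Steps M w S c c'

theorem Steps.trans {M : SpaceTM A} {w : List A} {S : ℕ} {a b c : M.Cfg} (h1 : Steps M w S a b)
    (h2 : Steps M w S b c) : Steps M w S a c := by
  induction h1 with
  | refl => exact h2
  | step h _ ih => exact .step h (ih h2)

theorem Steps.one {M : SpaceTM A} {w : List A} {S : ℕ} {a b c : M.Cfg} (e : M.step w a = b)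
    (h : ∀ j, b.head j ≤ S) (h2 : Steps M w S b c) : Steps M w S a c := by
  subst e; exact .step h h2

theorem Steps.exists {M : SpaceTM A} {w : List A} {S : ℕ} {a b : M.Cfg} (h : Steps M w S a b)
    (ha : ∀ j, a.head j ≤ S) : ∃ t, (M.step w)^[t] a = b ∧ ∀ t' ≤ t, ∀ j, ((M.step w)^[t'] a).head j ≤ S := by
  induction h with
  | refl c => exact ⟨0, rfl, fun t' h => by obtain rfl : t' = 0 := by omega
                                            exact ha⟩
  | step h _ ih =>
    obtain ⟨t, h1, h2⟩ := ih h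
    refine ⟨t + 1, h1, fun t' ht => ?_⟩
    rcases t' with _ | t'
    · exact ha
    · exact h2 t' (by omega)

def cfgm (l : Λ) (h : ℕ) (σ : ℕ → ℕ) (r : ℕ) (τ : ℕ → Fin 3) (pos : ℕ) : (mach st out δ).Cfg :=
  ⟨l, h, fun j => if j.val = r then τ else tpe 0 0 (σ j), fun j => if j.val = r then pos else 1⟩

def cfg (l : Λ) (h : ℕ) (σ : ℕ → ℕ) : (mach st out δ).Cfg :=
  ⟨l, h, fun j => tpe 0 0 (σ j), fun _ => 1⟩

theorem tpe_zero (d : Fin 3) (x : ℕ) : tpe 0 d x = tpe 0 0 x := by
  funext c; simp only [tpe]; split_ifs <;> first | rfl | omega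

theorem cfg_eq (l : Λ) (h : ℕ) (σ : ℕ → ℕ) (r x : ℕ) (d : Fin 3) :
    (cfgm l h σ r (tpe 0 d x) 1 : (mach st out δ).Cfg) = cfg l h (update σ r x) := by
  simp only [cfgm, cfg, ite_self, tpe_zero d]
  congr 1
  funext j
  split_ifs with h1
  · rw [← h1, update_self]
  · rw [update_of_ne h1]

theorem step_act {w : List A} {l l' : Λ} {h : ℕ} {σ : ℕ → ℕ} {r : ℕ} {τ : ℕ → Fin 3} {pos : ℕ}
    {a : Fin 3} {m : Move} (hr : r < k) (hh : h ≤ w.length + 1) (ho : out l = none)
    (hδ : ∀ s v, rd r v = τ pos → δ l s v = act l' r v a m) :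
    (mach st out δ).step w (cfgm l h σ r τ pos) = cfgm l' h σ r (update τ pos a) (m.nat pos) := by
  simp only [SpaceTM.step, cfgm, ho, Option.isSome_none, Bool.false_eq_true, if_false]
  rw [hδ _ _ (by simp [rd, hr])]
  simp only [act, Move.nat, min_eq_left hh]
  congr 1
  · funext j; split_ifs <;> simp
  · funext j; split_ifs <;> simp

theorem step_id {w : List A} {l l' : Λ} {h : ℕ} {σ : ℕ → ℕ} {m : Move} (ho : out l = none)
    (hδ : δ l (readIn w h) (fun j => tpe 0 0 (σ j) 1) = (l', m, fun j : Fin k => (tpe 0 0 (σ j) 1, Move.stay))) :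
    (mach st out δ).step w (cfg l h σ) = cfg l' (min (m.nat h) (w.length + 1)) σ := by
  simp only [SpaceTM.step, cfg, ho, Option.isSome_none, Bool.false_eq_true, if_false, hδ]
  simp [Move.nat]

theorem cfgm_head {S : ℕ} {l : Λ} {h : ℕ} {σ : ℕ → ℕ} {r : ℕ} {τ : ℕ → Fin 3} {pos : ℕ} (h1 : 1 ≤ S)
    (h2 : pos ≤ S) (j) : (cfgm l h σ r τ pos : (mach st out δ).Cfg).head j ≤ S := by
  simp only [cfgm]; split_ifs <;> assumption

theorem back {w : List A} {S : ℕ} {l next : Λ} {h : ℕ} {σ : ℕ → ℕ} {r : ℕ} {τ : ℕ → Fin 3}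
    (hr : r < k) (hh : h ≤ w.length + 1) (ho : out l = none) (hS : 1 ≤ S)
    (hδ : ∀ s v, δ l s v = if rd r v = 0 then act next r v 0 .right else act l r v (rd r v) .left)
    (h0 : τ 0 = 0) (pos : ℕ) (hp : pos ≤ S) (h1 : ∀ c, 1 ≤ c → c ≤ pos → τ c ≠ 0) :
    Steps (mach st out δ) w S (cfgm l h σ r τ pos) (cfgm next h σ r τ 1) := by
  induction pos with
  | zero =>
    refine .one (step_act (a := 0) (m := .right) (l' := next) hr hh ho fun s v e => by simp [hδ, e, h0])
      (cfgm_head hS hS) ?_
    rw [← h0, update_eq_self]; exact .refl _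
  | succ pos ih =>
    refine .one (step_act (a := τ (pos + 1)) (m := .left) (l' := l) hr hh ho fun s v e => by
      simp [hδ, e, h1 (pos + 1) (by omega) le_rfl]) (cfgm_head hS (by simp [Move.nat]; omega)) ?_
    rw [update_eq_self]
    exact ih (by omega) fun c h2 h3 => h1 c h2 (by omega)

theorem tpe_ne {j x : ℕ} {d : Fin 3} (hd : d ≠ 0) (c : ℕ) (h1 : 1 ≤ c) (h2 : c ≤ j + 1) :
    tpe j d (x + 1) c ≠ 0 := by
  simp only [tpe, show c ≠ 0 by omega, if_false]
  split_ifs with h
  · exact hd
  · rw [show c - j - 1 = 0 by omega, dgt]; split_ifs <;> decide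

theorem tpe_upd {j x y : ℕ} {d a : Fin 3} (h0 : dgt y 0 = a) (h1 : ∀ p, dgt y (p + 1) = dgt x (p + 1)) :
    update (tpe j d x) (j + 1) a = tpe j d y := by
  funext c
  by_cases h : c = j + 1
  · subst h; simp [tpe, h0]
  · rw [update_of_ne h]
    simp only [tpe]
    split_ifs
    · rfl
    · rfl
    · obtain ⟨p, hp⟩ : ∃ p, c - j - 1 = p + 1 := ⟨c - j - 2, by omega⟩
      rw [hp, h1]

theorem tpe_shift {j x y : ℕ} {d : Fin 3} (h0 : dgt y 0 = d) (h1 : ∀ p, dgt y (p + 1) = dgt x p) :
    tpe (j + 1) d x = tpe j d y := by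
  funext c
  simp only [tpe]
  split_ifs with a b c' c'
  · rfl
  · rfl
  · rw [show c - j - 1 = 0 by omega, h0]
  · omega
  · rw [show c - j - 1 = c - (j + 1) - 1 + 1 by omega, h1]

theorem tpe_at (j x : ℕ) (d : Fin 3) : tpe j d x (j + 1) = dgt x 0 := by simp [tpe]

theorem le_of_pow {j x S : ℕ} (h : 2 ^ j * (x + 1) ≤ 2 ^ S) : j ≤ S :=
  (Nat.pow_le_pow_iff_right (by norm_num)).1 (le_trans (Nat.le_mul_of_pos_right _ (by omega)) h)

theorem sim_inc {w : List A} {S : ℕ} {h : ℕ} {σ : ℕ → ℕ} {r : ℕ} (emb : Bool → Λ) (next : Λ)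
    (hr : r < k) (hh : h ≤ w.length + 1) (ho : ∀ l, out (emb l) = none)
    (hδ : ∀ l, δ (emb l) = code k (.inc r) emb next l) (x j : ℕ) (hj : 2 ^ j * (x + 1) ≤ 2 ^ S) :
    Steps (mach st out δ) w (S + 2) (cfgm (emb true) h σ r (tpe j 1 x) (j + 1))
      (cfgm next h σ r (tpe j 1 (x + 1)) 1) := by
  induction x using Nat.strong_induction_on generalizing j with
  | _ x ih =>
    have hjS := le_of_pow hj
    by_cases h2 : dgt x 0 = 2
    · obtain ⟨y, rfl⟩ : ∃ y, x = 2 * y + 2 := by
        rcases x with _ | x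
        · simp [dgt] at h2
        · refine ⟨x / 2, ?_⟩
          rw [dgt] at h2; split_ifs at h2 with h3
          · exact absurd h2 (by decide)
          · omega
      refine .one (step_act (a := 1) (m := .right) (l' := emb true) hr hh (ho _) fun s v e => by
        simp [hδ, code, e, tpe_at, h2]) (cfgm_head (by omega) (by simp [Move.nat]; omega)) ?_
      rw [tpe_upd (y := 2 * y + 1) (by simp [dgt]) (fun p => by
          rw [dgt, dgt, show (2 * y + 1) / 2 = 2 * y / 2 by omega]),
        ← tpe_shift (x := y) (by simp [dgt]) (fun p => by simp [dgt]),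
        ← tpe_shift (x := y + 1) (y := 2 * y + 2 + 1) (by rw [dgt, if_pos (by omega)])
          (fun p => by rw [dgt, show (2 * y + 2) / 2 = y + 1 by omega])]
      exact ih y (by omega) (j + 1) (by rw [pow_succ]; nlinarith [Nat.one_le_two_pow (n := j)])
    · refine .one (step_act (a := dgt x 0 + 1) (m := .stay) (l' := emb false) hr hh (ho _) fun s v e => by
        simp [hδ, code, e, tpe_at, h2]) (cfgm_head (by omega) (by simp [Move.nat]; omega)) ?_
      rw [tpe_upd (y := x + 1) ?_ ?_]
      · exact back hr hh (ho _) (by omega) (fun s v => by simp [hδ, code]) (by simp [tpe]) _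
          (by simp [Move.nat]; omega) (tpe_ne (by decide))
      · rcases x with _ | x
        · simp [dgt]
        · rw [dgt] at h2 ⊢
          split_ifs at h2 with h3
          · rw [if_neg (by omega), dgt, if_pos h3]; rfl
          · exact absurd rfl h2
      · intro p
        rcases x with _ | x
        · simp [dgt]
        · rw [dgt] at h2
          split_ifs at h2 with h3
          · rw [dgt, dgt, show (x + 1) / 2 = x / 2 by omega]
          · exact absurd rfl h2

theorem sim_dec {w : List A} {S : ℕ} {h : ℕ} {σ : ℕ → ℕ} {r : ℕ} (emb : Option Bool → Λ) (next : Λ)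
    (hr : r < k) (hh : h ≤ w.length + 1) (ho : ∀ l, out (emb l) = none)
    (hδ : ∀ l, δ (emb l) = code k (.dec r) emb next l) (x j : ℕ) (hj : 2 ^ j * (x + 1) ≤ 2 ^ S) :
    (Steps (mach st out δ) w (S + 2) (cfgm (emb none) h σ r (tpe j 2 0) (j + 1))
      (cfgm next h σ r (tpe (j - 1) 2 0) 1)) ∧ (x ≠ 0 →
    Steps (mach st out δ) w (S + 2) (cfgm (emb none) h σ r (tpe j 2 x) (j + 1))
      (cfgm next h σ r (tpe j 2 (x - 1)) 1)) := by
  have hb := fun τ => back (st := st) (σ := σ) (S := S + 2) (δ := δ) (τ := τ) (next := next) hr hh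
    (ho (some false)) (by omega) (fun s v => by simp [hδ, code])
  induction x using Nat.strong_induction_on generalizing j with
  | _ x ih =>
    have hjS := le_of_pow hj
    constructor
    · refine .one (step_act (a := 0) (m := .left) (l' := emb (some true)) hr hh (ho _) fun s v e => by
        simp [hδ, code, e, tpe_at, dgt]) (cfgm_head (by omega) (by simp [Move.nat]; omega)) ?_
      refine .one (step_act (a := 0) (m := .left) (l' := emb (some false)) hr hh (ho _) fun s v e => by
        simp [hδ, code]) (cfgm_head (by omega) (by simp [Move.nat]; omega)) ?_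
      have e : update (update (tpe j 2 0) (j + 1) 0) (Move.left.nat (j + 1)) 0 = tpe (j - 1) 2 0 := by
        funext c
        simp only [Move.nat, Nat.add_sub_cancel, update_apply, tpe, dgt]
        split_ifs <;> first | rfl | omega
      rw [e]
      refine hb _ (by simp [tpe]) _ (by simp [Move.nat]; omega) fun c h1 h2 => ?_
      simp only [Move.nat, Nat.add_sub_cancel] at h2
      simp [tpe, h2, show c ≠ 0 by omega]
    · intro hx
      obtain ⟨x, rfl⟩ := Nat.exists_eq_succ_of_ne_zero hx
      simp only [Nat.succ_eq_add_one, Nat.add_sub_cancel]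
      rcases Nat.even_or_odd' x with ⟨y, rfl | rfl⟩
      · refine .one (step_act (a := 2) (m := .right) (l' := emb none) hr hh (ho _) fun s v e => by
          simp [hδ, code, e, tpe_at, dgt]) (cfgm_head (by omega) (by simp [Move.nat]; omega)) ?_
        rw [tpe_upd (y := 2 * y + 1 + 1) (by rw [dgt, if_neg (by omega)]) (fun p => by
            rw [dgt, dgt, show (2 * y + 1) / 2 = 2 * y / 2 by omega]),
          ← tpe_shift (x := y) (by rw [dgt, if_neg (by omega)])
            (fun p => by rw [dgt, show (2 * y + 1) / 2 = y by omega])]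
        have := ih y (by omega) (j + 1) (by rw [pow_succ]; nlinarith [Nat.one_le_two_pow (n := j)])
        rcases y with _ | y
        · exact this.1
        · rw [show 2 * (y + 1) = 2 * y + 1 + 1 by ring, ← tpe_shift (x := y) (y := 2 * y + 1 + 1)
            (by rw [dgt, if_neg (by omega)]) (fun p => by rw [dgt, show (2 * y + 1) / 2 = y by omega])]
          exact this.2 (by omega)
      · refine .one (step_act (a := 1) (m := .stay) (l' := emb (some false)) hr hh (ho _) fun s v e => by
          simp [hδ, code, e, tpe_at, dgt]) (cfgm_head (by omega) (by simp [Move.nat]; omega)) ?_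
        rw [tpe_upd (y := 2 * y + 1) (by simp [dgt]) (fun p => by
            rw [dgt, dgt, show (2 * y + 1) / 2 = 2 * y / 2 by omega])]
        exact hb _ (by simp [tpe]) _ (by simp [Move.nat]; omega) (tpe_ne (by decide))

theorem rd_tpe {r : ℕ} (hr : r < k) (σ : ℕ → ℕ) :
    rd r (fun j : Fin k => tpe 0 0 (σ j) 1) = 0 ↔ σ r = 0 := by
  simp only [rd, hr, dite_true]
  rcases σ r with _ | x
  · simp [tpe, dgt]
  · simpa using tpe_ne (j := 0) (d := 1) (x := x) (by decide) 1 le_rfl le_rfl ∘ (tpe_zero 1 _ ▸ ·)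

theorem sim {w : List A} {B S : ℕ} (hS : B + 1 ≤ 2 ^ S) {p σ h σ' h'} (H : Run w B p σ h σ' h') :
    ∀ (emb : Lab p → Λ) (next : Λ), Uses k p → h ≤ w.length + 1 → (∀ l, out (emb l) = none) →
      (∀ l, δ (emb l) = code k p emb next l) →
      Steps (mach st out δ) w (S + 2) (cfg (emb (entry p)) h σ) (cfg next h' σ') := by
  have hd : ∀ l h σ j, (cfg l h σ : (mach st out δ).Cfg).head j ≤ S + 2 := fun _ _ _ _ => by simp [cfg]
  induction H with
  | skip σ h =>
    intro emb next _ hh ho hδ
    refine .one (step_id (m := .stay) (l' := next) (ho _) (by rw [hδ]; rfl)) (hd _ _ _) ?_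
    rw [Move.nat, min_eq_left hh]; exact .refl _
  | inc r σ h h1 =>
    intro emb next hu hh ho hδ
    have := sim_inc (st := st) (σ := σ) (S := S) emb next hu hh ho hδ (σ r) 0 (by omega)
    rwa [cfg_eq, cfg_eq, update_eq_self] at this
  | dec r σ h h1 =>
    intro emb next hu hh ho hδ
    have := sim_dec (st := st) (σ := σ) (S := S) emb next hu hh ho hδ (σ r) 0 (by omega)
    by_cases h0 : σ r = 0
    · have := this.1
      rw [cfg_eq, cfg_eq] at this
      rw [h0]
      conv => enter [4]; rw [← update_eq_self r σ, h0]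
      exact this
    · have := this.2 h0
      rwa [cfg_eq, cfg_eq, update_eq_self] at this
  | mv m σ h =>
    intro emb next _ hh ho hδ
    exact .one (step_id (m := m) (l' := next) (ho _) (by rw [hδ]; rfl)) (hd _ _ _) (.refl _)
  | seq H1 _ ih1 ih2 =>
    intro emb next hu hh ho hδ
    exact (ih1 (fun x => emb (.inl x)) _ hu.1 hh (fun _ => ho _) fun l => hδ (.inl l)).trans
      (ih2 (fun x => emb (.inr x)) next hu.2 (H1.head_le hh) (fun _ => ho _) fun l => hδ (.inr l))
  | @stop r p σ h h0 =>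
    intro emb next hu hh ho hδ
    refine .one (step_id (m := .stay) (l' := next) (ho _) (by
      rw [hδ]; simp only [entry, code, (rd_tpe hu.1 σ).2 h0, if_true])) (hd _ _ _) ?_
    rw [Move.nat, min_eq_left hh]; exact .refl _
  | @go r p σ h _ _ _ _ h0 H1 _ ih1 ih2 =>
    intro emb next hu hh ho hδ
    refine .one (step_id (m := .stay) (l' := emb (some (entry p))) (ho _) (by
      rw [hδ]; simp only [entry, code, (rd_tpe hu.1 σ).not.2 h0, if_false])) (hd _ _ _) ?_
    rw [Move.nat, min_eq_left hh]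
    exact (ih1 (fun x => emb (some x)) _ hu.2 hh (fun _ => ho _) fun l => hδ (some l)).trans
      (ih2 emb next hu (H1.head_le hh) ho hδ)
  | @cas f σ h _ _ _ ih =>
    intro emb next hu hh ho hδ
    refine .one (step_id (m := .stay) (l' := emb (some ⟨readIn w h, entry _⟩)) (ho _) (by
      rw [hδ]; rfl)) (hd _ _ _) ?_
    rw [Move.nat, min_eq_left hh]
    exact ih (fun x => emb (some ⟨_, x⟩)) next (hu _) hh (fun _ => ho _) fun l => hδ (some ⟨_, l⟩)
end

/-- a counter program whose counters stay below `2 ^ s` gives a space bound -/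
theorem space_of_prog [Finite A] (p : Prog A) (r : ℕ) :
    ∃ M : SpaceTM A, ∀ (w : List A) (S : ℕ) σ' h', Run w (2 ^ S - 1) p (fun _ => 0) 0 σ' h' →
      (∃ t, M.out (M.run w t).state = some (decide (σ' r ≠ 0))) ∧ ∀ t j, (M.run w t).head j ≤ S + 2 := by
  obtain ⟨k0, hk⟩ := exists_uses p
  let k := max k0 (r + 1)
  have hr : r < k := lt_of_lt_of_le (Nat.lt_succ_self r) (le_max_right _ _)
  let out : Lab p ⊕ Bool ⊕ Bool → Option Bool := fun l => match l with
    | .inr (.inr b) => some b
    | _ => none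
  let δ : Lab p ⊕ Bool ⊕ Bool → Option A → (Fin k → Fin 3) → Act k (Lab p ⊕ Bool ⊕ Bool) := fun l =>
    match l with
    | .inl l => code k p Sum.inl (.inr (.inl false)) l
    | .inr (.inl true) => fun _ v => (.inl (entry p), .stay, fun j => (v j, .right))
    | .inr _ => fun _ v => (.inr (.inr (decide (rd r v ≠ 0))), .stay, fun j => (v j, .stay))
  refine ⟨mach (.inr (.inl true)) out δ, fun w S σ' h' H => ?_⟩
  have h1 := sim (st := .inr (.inl true)) (out := out) (δ := δ) (S := S)
    (by have := Nat.one_le_two_pow (n := S); omega) H Sum.inl (.inr (.inl false))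
    (Uses.mono (le_max_left _ _) p hk) (by omega) (fun _ => rfl) fun _ => rfl
  have h2 := h1.trans (.one (step_id (m := .stay) (l' := .inr (.inr (decide (σ' r ≠ 0)))) rfl (by
    simp only [δ, ne_eq, rd_tpe hr])) (fun _ => by simp [cfg]) (.refl _))
  have h3 := Steps.one (M := mach (.inr (.inl true)) out δ)
    (a := ⟨.inr (.inl true), 0, fun _ _ => 0, fun _ => 0⟩) (by
      simp only [SpaceTM.step, out, δ, cfg, Move.nat]
      simp
      funext j c
      simp [tpe, dgt]) (fun _ => by simp [cfg]) h2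
  obtain ⟨t, h4, h5⟩ := h3.exists (fun _ => by simp)
  refine ⟨⟨t, by rw [SpaceTM.run, h4]; rfl⟩, fun t' j => ?_⟩
  rcases le_total t' t with h | h
  · exact h5 t' h j
  · obtain ⟨d, rfl⟩ := Nat.exists_eq_add_of_le h
    rw [SpaceTM.run, add_comm, iterate_add_apply, h4, iterate_fixed (by rfl)]
    simp [cfg]

end Vale.Agent.P312
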