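import Vale.Agent.P312.Spec3

namespace Vale.Agent.P312
open Finset Function

attribute [instance] OneTape.finQ OneTape.finΓ

noncomputable section

def cd {X : Type} [Finite X] (x : X) : ℕ := Finite.equivFin X x
def dc {X : Type} [Finite X] (x0 : X) (n : ℕ) : X :=
  if h : n < Nat.card X then (Finite.equivFin X).symm ⟨n, h⟩ else x0
theorem cd_lt {X : Type} [Finite X] (x : X) : cd x < Nat.card X := Fin.is_lt _
theorem dc_cd {X : Type} [Finite X] (x0 x : X) : dc x0 (cd x) = x := by simp [dc, cd]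

def mvc : Move → ℕ
  | .left => 0
  | .stay => 1
  | .right => 2
def oc : Option Bool → ℕ
  | none => 0
  | some true => 1
  | some false => 2

theorem mvc_int (m : Move) : (mvc m : ℤ) = m.int + 1 := by cases m <;> rfl

namespace OneTape
variable {α : Type} (T : OneTape α)

def tr (y : ℕ) := T.trans (dc T.start (y % Nat.card T.Q)) (dc T.blank (y / Nat.card T.Q))
def par : Par := ⟨Nat.card T.Q, Nat.card T.Γ, cd T.start, fun y => cd (T.tr y).1, fun y => cd (T.tr y).2.1,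
  fun y => mvc (T.tr y).2.2, fun y => oc (T.out (dc T.start y))⟩
def sy (s : Option α) : ℕ := cd ((s.map T.sym).getD T.blank)

variable (w : List α) (ρ o : ℕ)
def Hl (s : ℕ) : Prop := (T.out (T.run w s).state).isSome
def pos (s : ℕ) : ℕ := ((T.run w s).head + ρ ^ 8).toNat + o
def ent (s : ℕ) : ℕ := cd (T.run w s).state + Nat.card T.Q * T.pos w ρ o s
def cont (s j : ℕ) : ℕ :=
  num (Nat.card T.Γ) (ρ ^ 2) fun i => cd ((T.run w s).tape ((j * ρ ^ 2 + i : ℕ) - (ρ ^ 8 + o : ℕ)))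
open Classical in
def τ (s : ℕ) : ℕ → ℕ
  | 0 => s
  | k + 1 => if T.Hl w (τ s k) ∨ T.pos w ρ o (τ s k) / ρ ^ 2 ≠ T.pos w ρ o s / ρ ^ 2 then τ s k else τ s k + 1
def ts : ℕ → ℕ
  | 0 => 0
  | i + 1 => T.τ w ρ o (ts i) (ρ ^ 5)
def cr (s : ℕ) : ℕ := ((range s).filter fun r => T.pos w ρ o r / ρ ^ 2 ≠ T.pos w ρ o (r + 1) / ρ ^ 2).card

variable {T w ρ o}

theorem run_succ (s : ℕ) : T.run w (s + 1) = T.step (T.run w s) := iterate_succ_apply' _ _ _

theorem head_step (s : ℕ) : (T.run w (s + 1)).head ≤ (T.run w s).head + 1 ∧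
    (T.run w s).head ≤ (T.run w (s + 1)).head + 1 := by
  rw [run_succ, step]
  split_ifs
  · omega
  · dsimp only; rcases (T.trans _ _).2.2 <;> simp [Move.int]; omega

theorem head_bd (s : ℕ) : (T.run w s).head ≤ s ∧ -(s : ℤ) ≤ (T.run w s).head := by
  induction s with
  | zero => simp [run]
  | succ s ih => have := head_step (T := T) (w := w) s; push_cast; omega

theorem run_hl {s : ℕ} (h : T.Hl w s) (k : ℕ) : T.run w (s + k) = T.run w s := by
  induction k with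
  | zero => rfl
  | succ k ih => rw [← add_assoc, run_succ, ih, step]; exact if_pos h

theorem nq_pos : 0 < Nat.card T.Q := (Nat.zero_le _).trans_lt (cd_lt T.start)
theorem ng_pos : 0 < Nat.card T.Γ := (Nat.zero_le _).trans_lt (cd_lt T.blank)

theorem ent_lt {s : ℕ} (ho : o < ρ ^ 2) (hs : s ≤ ρ ^ 8) : T.ent w ρ o s < T.par.β ρ := by
  have := head_bd (T := T) (w := w) s
  have h1 : T.pos w ρ o s + 1 ≤ 2 * ρ ^ 8 + ρ ^ 2 + 1 := by
    have : (s : ℤ) ≤ (ρ : ℤ) ^ 8 := by exact_mod_cast hs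
    have : ((ρ ^ 8 : ℕ) : ℤ) = (ρ : ℤ) ^ 8 := by push_cast; rfl
    unfold pos; omega
  have h2 := Nat.mul_le_mul_left (Nat.card T.Q) h1
  have := cd_lt (T.run w s).state
  rw [mul_add] at h2
  show _ < Nat.card T.Q * _
  unfold ent; omega

theorem ent_mod (s : ℕ) : T.ent w ρ o s % Nat.card T.Q = cd (T.run w s).state := by
  rw [ent, Nat.add_mul_mod_self_left, Nat.mod_eq_of_lt (cd_lt _)]
theorem ent_div (s : ℕ) : T.ent w ρ o s / Nat.card T.Q = T.pos w ρ o s := by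
  rw [ent, Nat.add_mul_div_left _ _ nq_pos, Nat.div_eq_of_lt (cd_lt _), zero_add]
theorem hl_ent (s : ℕ) : T.par.hl (T.ent w ρ o s) = oc (T.out (T.run w s).state) := by
  show tab _ (Nat.card T.Q) (_ % Nat.card T.Q) = _
  rw [ent_mod, tab, if_pos (cd_lt _)]
  show oc (T.out (dc _ _)) = _
  rw [dc_cd]
theorem blk_ent (s : ℕ) : T.par.blk ρ (T.ent w ρ o s) = T.pos w ρ o s / ρ ^ 2 := by
  show _ / Nat.card T.Q / _ = _
  rw [ent_div]
theorem cont_lt (s j : ℕ) : T.cont w ρ o s j < 2 ^ T.par.L ρ :=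
  (num_lt fun _ _ => cd_lt _).trans_le (T.par.ng_le ρ)

theorem pos_cast {s : ℕ} (hs : s ≤ ρ ^ 8) : (T.pos w ρ o s : ℤ) = (T.run w s).head + (ρ ^ 8 + o : ℕ) := by
  have := head_bd (T := T) (w := w) s
  have : (s : ℤ) ≤ (ρ : ℤ) ^ 8 := by exact_mod_cast hs
  unfold pos; push_cast; omega

theorem cont_other {s j : ℕ} (hs : s ≤ ρ ^ 8) (hj : T.pos w ρ o s / ρ ^ 2 ≠ j) :
    T.cont w ρ o (s + 1) j = T.cont w ρ o s j := by
  refine num_congr fun i hi => ?_
  rw [run_succ, step]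
  split_ifs
  · rfl
  · dsimp only
    rw [update_of_ne fun e => hj ?_]
    have := pos_cast (T := T) (w := w) (o := o) hs
    rw [show T.pos w ρ o s = i + ρ ^ 2 * j by rw [mul_comm]; omega, Nat.add_mul_div_left _ _ (by omega),
      Nat.div_eq_of_lt hi, zero_add]

open Classical in
theorem loc_step {s j : ℕ} (ho : o < ρ ^ 2) (hs : s < ρ ^ 8) :
    T.par.loc ρ (T.par.P ρ) j (T.ent w ρ o s + T.par.β ρ * T.cont w ρ o s j) =
      if T.Hl w s ∨ T.pos w ρ o s / ρ ^ 2 ≠ j then T.ent w ρ o s + T.par.β ρ * T.cont w ρ o s j else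
        T.ent w ρ o (s + 1) + T.par.β ρ * T.cont w ρ o (s + 1) j := by
  have h1 := ent_lt (T := T) (w := w) ho hs.le
  have h2 : (T.ent w ρ o s + T.par.β ρ * T.cont w ρ o s j) % T.par.β ρ = T.ent w ρ o s := by
    rw [Nat.add_mul_mod_self_left, Nat.mod_eq_of_lt h1]
  have h3 : (T.ent w ρ o s + T.par.β ρ * T.cont w ρ o s j) / T.par.β ρ = T.cont w ρ o s j := by
    rw [Nat.add_mul_div_left _ _ (by omega), Nat.div_eq_of_lt h1, zero_add]
  have h4 : oc (T.out (T.run w s).state) ≠ 0 ↔ T.Hl w s := by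
    unfold Hl; rcases T.out (T.run w s).state with _ | _ | _ <;> simp [oc]
  rw [Par.loc, Par.key, h2, h3, hl_ent, blk_ent]
  refine if_ctx_congr (by rw [h4]) (fun _ => rfl) fun h => ?_
  push Not at h
  have h5 := pos_cast (T := T) (w := w) (o := o) hs.le
  have h6 := pos_cast (T := T) (w := w) (o := o) (show s + 1 ≤ ρ ^ 8 from hs)
  have h7 := Nat.mod_lt (T.pos w ρ o s) (show ρ ^ 2 > 0 by omega)
  have h8 : j * ρ ^ 2 + T.pos w ρ o s % ρ ^ 2 = T.pos w ρ o s := by rw [← h.2, Nat.div_add_mod']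
  have e1 : T.par.nq = Nat.card T.Q := rfl
  have e2 : T.par.ng = Nat.card T.Γ := rfl
  have h9 : ∀ i < ρ ^ 2, dg (Nat.card T.Γ) (T.cont w ρ o s j) i =
      cd ((T.run w s).tape ((j * ρ ^ 2 + i : ℕ) - (ρ ^ 8 + o : ℕ))) := fun i hi =>
    dg_num (fun _ _ => cd_lt _) hi
  rw [e1, e2, ent_mod, ent_div, h9 _ h7, h8, h5, add_sub_cancel_right]
  set y := cd (T.run w s).state + Nat.card T.Q * cd ((T.run w s).tape (T.run w s).head) with hy
  have y1 : y < Nat.card T.Q * Nat.card T.Γ := by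
    have := cd_lt (T.run w s).state
    have := Nat.mul_le_mul_left (Nat.card T.Q) (cd_lt ((T.run w s).tape (T.run w s).head))
    rw [Nat.mul_succ] at this; omega
  have y2 : T.tr y = T.trans (T.run w s).state ((T.run w s).tape (T.run w s).head) := by
    rw [tr, hy, Nat.add_mul_mod_self_left, Nat.mod_eq_of_lt (cd_lt _), Nat.add_mul_div_left _ _ nq_pos,
      Nat.div_eq_of_lt (cd_lt _), zero_add, dc_cd, dc_cd]
  have y3 : T.run w (s + 1) = ⟨(T.tr y).1, update (T.run w s).tape (T.run w s).head (T.tr y).2.1,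
      (T.run w s).head + (T.tr y).2.2.int⟩ := by rw [run_succ, step, y2]; exact if_neg h.1
  simp only [tab, if_pos y1]
  rw [numP_eq _ ng_pos ((T.par.ng_le ρ).trans (T.par.two_le ρ)), ent]
  congr 2
  · rw [y3]; rfl
  · congr 1
    have := mvc_int (T.tr y).2.2
    have h10 := head_bd (T := T) (w := w) s
    have : (s : ℤ) < (ρ ^ 8 : ℕ) := by exact_mod_cast hs
    rw [y3] at h6
    show _ + mvc (T.tr y).2.2 - 1 = _
    dsimp only at h6
    omega
  · refine num_congr fun i hi => ?_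
    rw [y3, h9 i hi]
    dsimp only
    rw [update_apply]
    split_ifs with a b b <;> first | rfl | omega

theorem τ_spec (_ho : o < ρ ^ 2) {s : ℕ} (k : ℕ) (hs : s + k ≤ ρ ^ 8) :
    s ≤ T.τ w ρ o s k ∧ T.τ w ρ o s k ≤ s + k ∧
    (T.τ w ρ o s k = s + k ∨ T.Hl w (T.τ w ρ o s k) ∨
      T.pos w ρ o (T.τ w ρ o s k) / ρ ^ 2 ≠ T.pos w ρ o s / ρ ^ 2) ∧
    ∀ j, T.pos w ρ o s / ρ ^ 2 ≠ j → T.cont w ρ o (T.τ w ρ o s k) j = T.cont w ρ o s j := by
  induction k with
  | zero => simp [τ]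
  | succ k ih =>
    obtain ⟨h1, h2, h3, h4⟩ := ih (by omega)
    rw [τ]
    split_ifs with h
    · exact ⟨h1, by omega, Or.inr h, h4⟩
    · refine ⟨by omega, by omega, Or.inl (by have := h3.resolve_right h; omega), fun j hj => ?_⟩
      push Not at h
      rw [cont_other (by omega) (by rwa [h.2]), h4 j hj]

theorem V_eq (ho : o < ρ ^ 2) {s : ℕ} (hs : s + ρ ^ 5 ≤ ρ ^ 8) :
    T.par.V ρ (T.par.P ρ) (T.ent w ρ o s) (T.cont w ρ o s (T.pos w ρ o s / ρ ^ 2)) =
      T.ent w ρ o (T.τ w ρ o s (ρ ^ 5)) +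
        T.par.β ρ * T.cont w ρ o (T.τ w ρ o s (ρ ^ 5)) (T.pos w ρ o s / ρ ^ 2) := by
  refine iterC_eq (fun k => T.ent w ρ o (T.τ w ρ o s k) +
    T.par.β ρ * T.cont w ρ o (T.τ w ρ o s k) (T.pos w ρ o s / ρ ^ 2)) rfl (fun k hk => ?_) fun k hk => ?_
  · have := (τ_spec (T := T) (w := w) ho k (s := s) (by omega)).2.1
    rw [blk_ent, loc_step ho (by omega), τ]
    split_ifs <;> rfl
  · have := (τ_spec (T := T) (w := w) ho k (s := s) (by omega)).2.1
    have h1 := ent_lt (T := T) (w := w) (s := T.τ w ρ o s k) ho (by omega)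
    have h2 := Nat.mul_le_mul_left (T.par.β ρ) ((cont_lt (T := T) (w := w) (o := o) (T.τ w ρ o s k)
      (T.pos w ρ o s / ρ ^ 2)).trans_le (T.par.two_le ρ))
    rw [Nat.mul_succ] at h2
    omega

theorem cr_mono {s s' : ℕ} (h : s ≤ s') : T.cr w ρ o s ≤ T.cr w ρ o s' :=
  card_le_card (filter_subset_filter _ (range_mono h))

theorem cr_lt {s s' : ℕ} (h : s ≤ s') (hne : T.pos w ρ o s' / ρ ^ 2 ≠ T.pos w ρ o s / ρ ^ 2) :
    T.cr w ρ o s < T.cr w ρ o s' := by
  induction s', h using Nat.le_induction with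
  | base => exact absurd rfl hne
  | succ k hk ih =>
    by_cases e : T.pos w ρ o k / ρ ^ 2 = T.pos w ρ o s / ρ ^ 2
    · refine (cr_mono hk).trans_lt ?_
      rw [cr, cr, range_add_one, filter_insert, if_pos (by rw [e]; exact hne.symm),
        card_insert_of_notMem (by simp)]
      omega
    · exact (ih e).trans_le (cr_mono (by omega))

theorem ts_spec (ho : o < ρ ^ 2) (i : ℕ) (hi : i ≤ ρ ^ 3) : T.ts w ρ o i ≤ i * ρ ^ 5 ∧
    (T.Hl w (T.ts w ρ o i) ∨ ρ ^ 5 ≤ T.ts w ρ o i ∨ i ≤ T.cr w ρ o (T.ts w ρ o i)) := by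
  induction i with
  | zero => simp [ts]
  | succ i ih =>
    obtain ⟨h1, h2⟩ := ih (by omega)
    have h3 : (i + 1) * ρ ^ 5 ≤ ρ ^ 8 := by rw [show 8 = 3 + 5 from rfl, pow_add]; gcongr
    rw [add_mul] at h3
    obtain ⟨h4, h5, h6, -⟩ := τ_spec (T := T) (w := w) ho (ρ ^ 5) (s := T.ts w ρ o i) (by omega)
    rw [ts]
    refine ⟨by rw [add_mul]; omega, ?_⟩
    rcases h2 with h2 | h2 | h2
    · obtain ⟨k, hk⟩ := Nat.exists_eq_add_of_le h4
      left; rw [Hl, hk, run_hl h2]; exact h2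
    · omega
    · rcases h6 with h6 | h6 | h6
      · omega
      · exact .inl h6
      · have := cr_lt h4 h6; omega

theorem ts_le (ho : o < ρ ^ 2) {i : ℕ} (hi : i < ρ ^ 3) : T.ts w ρ o i + ρ ^ 5 ≤ ρ ^ 8 := by
  have := (ts_spec (T := T) (w := w) ho i hi.le).1
  have h3 : (i + 1) * ρ ^ 5 ≤ ρ ^ 8 := by rw [show 8 = 3 + 5 from rfl, pow_add]; gcongr; omega
  rw [add_mul] at h3; omega

variable (T w) in
def cx (ho : o < ρ ^ 2) : Cx α where
  toPar := T.par
  w := w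
  sym := T.sy
  ρ := ρ
  o := o
  E i := T.ent w ρ o (T.ts w ρ o i)
  Cn i j := T.cont w ρ o (T.ts w ρ o i) j
  hρ := Nat.pos_of_ne_zero (by rintro rfl; simp at ho)
  hsym _ := cd_lt _
  hE0 := by
    have : ((ρ : ℤ) ^ 8).toNat = ρ ^ 8 := by rw [← Nat.cast_pow, Int.toNat_natCast]
    simp [ent, ts, pos, run, par, this]
  hC0 j := num_congr fun i _ => by
    simp only [ts, run, iterate_zero, id, sy, readIn]
    congr 1
    split_ifs with a b b
    · omega
    · congr 2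
      by_cases h : j * ρ ^ 2 + i - (ρ ^ 8 + o) < w.length
      · congr 1; omega
      · rw [List.getElem?_eq_none (by omega), List.getElem?_eq_none (by omega)]
    · rfl
    · omega
  hEs i hi := by
    have := (ts_spec (T := T) (w := w) ho (i + 1) hi).1
    have h3 : (i + 1) * ρ ^ 5 ≤ ρ ^ 8 := by rw [show 8 = 3 + 5 from rfl, pow_add]; gcongr; omega
    rw [blk_ent, V_eq ho (ts_le ho hi), Nat.add_mul_mod_self_left, ← ts, Nat.mod_eq_of_lt (ent_lt ho (this.trans h3))]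
  hCs i hi j := by
    have := (ts_spec (T := T) (w := w) ho (i + 1) hi).1
    have h3 : (i + 1) * ρ ^ 5 ≤ ρ ^ 8 := by rw [show 8 = 3 + 5 from rfl, pow_add]; gcongr; omega
    rw [blk_ent]
    split_ifs with h
    · subst h
      have h4 := ent_lt (T := T) (w := w) (s := T.ts w ρ o (i + 1)) ho (by omega)
      rw [V_eq ho (ts_le ho hi), ← ts, Nat.add_mul_div_left _ _ (by omega), Nat.div_eq_of_lt h4, zero_add]
    · exact (τ_spec ho _ (ts_le ho hi)).2.2.2 j h
  hEb i hi := by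
    have := (ts_spec (T := T) (w := w) ho i hi).1
    have h3 : i * ρ ^ 5 ≤ ρ ^ 8 := by rw [show 8 = 3 + 5 from rfl, pow_add]; gcongr
    exact ent_lt ho (by omega)
  hCb _ _ _ := cont_lt _ _

theorem complete {t : ℕ} (h : T.Hl w t) (ht : t < ρ ^ 5) : ∃ o < ρ ^ 2, T.Hl w (T.ts w ρ o (ρ ^ 3)) := by
  have hρ : 0 < ρ := Nat.pos_of_ne_zero (by rintro rfl; simp at ht)
  have h1 : ∑ o ∈ range (ρ ^ 2), T.cr w ρ o t ≤ t := by
    simp only [cr, card_filter]
    rw [sum_comm]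
    refine (sum_le_card_nsmul _ _ 1 fun r _ => ?_).trans (by simp)
    rw [← card_filter]
    refine card_le_one.2 fun a ha b hb => ?_
    rw [mem_filter, mem_range, pos, pos] at ha hb
    have h2 := head_step (T := T) (w := w) r
    have key : ∀ x a b : ℕ, a < ρ ^ 2 → b < ρ ^ 2 → (x + a) / ρ ^ 2 ≠ (x + 1 + a) / ρ ^ 2 →
        (x + b) / ρ ^ 2 ≠ (x + 1 + b) / ρ ^ 2 → a = b := fun x a b ha hb h3 h4 => by
      rw [add_right_comm, Nat.succ_div] at h3 h4
      have h5 : ρ ^ 2 ∣ x + a + 1 := by by_contra h; simp [h] at h3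
      have h6 : ρ ^ 2 ∣ x + b + 1 := by by_contra h; simp [h] at h4
      rcases le_total a b with h | h
      · have := Nat.eq_zero_of_dvd_of_lt (Nat.dvd_sub h6 h5) (by omega); omega
      · have := Nat.eq_zero_of_dvd_of_lt (Nat.dvd_sub h5 h6) (by omega); omega
    generalize hx : ((T.run w r).head + ρ ^ 8).toNat = x at ha hb
    generalize hy : ((T.run w (r + 1)).head + ρ ^ 8).toNat = y at ha hb
    obtain rfl | rfl | rfl : x = y ∨ y = x + 1 ∨ x = y + 1 := by omega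
    · exact absurd rfl ha.2
    · exact key _ _ _ ha.1 hb.1 ha.2 hb.2
    · exact key _ _ _ ha.1 hb.1 ha.2.symm hb.2.symm
  by_contra! H
  have h2 : ρ ^ 2 * ρ ^ 3 ≤ ∑ o ∈ range (ρ ^ 2), T.cr w ρ o t := by
    refine le_trans (by simp) (card_nsmul_le_sum (range (ρ ^ 2)) _ (ρ ^ 3) fun o ho => ?_)
    have h3 := H o (mem_range.1 ho)
    have h4 : T.ts w ρ o (ρ ^ 3) < t := by
      by_contra! h4
      obtain ⟨k, hk⟩ := Nat.exists_eq_add_of_le h4
      exact h3 (by rw [Hl, hk, run_hl h]; exact h)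
    have := (ts_spec (T := T) (w := w) (mem_range.1 ho) _ le_rfl).2.resolve_left h3
    have := cr_mono (T := T) (w := w) (ρ := ρ) (o := o) h4.le
    omega
  rw [← pow_add, show 2 + 3 = 5 from rfl] at h2
  omega

end OneTape
end
end Vale.Agent.P312
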